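import Vale.Agent.P137.H838.Var

open MeasureTheory Set Filter Topology
open scoped ENNReal NNReal ContDiff

namespace Vale.Agent.P137.BV

open Vale.Agent.P137 Vale.Agent.P137.U

variable {d : ℕ}

/-! ### Truncation in height and lower semicontinuity -/

theorem fderiv_min_le {U : E d → ℝ} (hU : Continuous U) (l : ℝ) (x : E d) :
    ‖fderiv ℝ (fun y => min (U y) l) x‖ₑ ≤ ‖fderiv ℝ U x‖ₑ := by
  rcases lt_trichotomy (U x) l with h | h | h
  · have h1 : (fun y => min (U y) l) =ᶠ[𝓝 x] U := by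
      filter_upwards [hU.continuousAt.eventually (eventually_lt_nhds h)] with y hy
      exact min_eq_left hy.le
    rw [h1.fderiv_eq]
  · have h1 : IsLocalMax (fun y => min (U y) l) x := by
      refine Eventually.of_forall fun y => ?_
      simp only
      rw [h, min_self]
      exact min_le_right _ _
    rw [h1.fderiv_eq_zero, ← ofReal_norm, norm_zero, ENNReal.ofReal_zero]
    exact zero_le
  · have h1 : (fun y => min (U y) l) =ᶠ[𝓝 x] fun _ => l := by
      filter_upwards [hU.continuousAt.eventually (eventually_gt_nhds h)] with y hy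
      exact min_eq_right hy.le
    rw [h1.fderiv_eq, fderiv_fun_const, Pi.zero_apply, ← ofReal_norm, norm_zero,
      ENNReal.ofReal_zero]
    exact zero_le

/-- Integration by parts for Lipschitz functions. -/
theorem lip_test {v : E d → ℝ} {L : ℝ≥0} (hv : LipschitzWith L v) {Φ : E d → E d} (hΦ : TF Φ)
    {R : ℝ} (hR : ∀ x, R ≤ ‖x‖ → Φ x = 0) {B : ℝ} (hB0 : 0 ≤ B)
    (hB : ∫⁻ x in Metric.ball (0 : E d) R, ‖fderiv ℝ v x‖ₑ ≤ ENNReal.ofReal B) :
    ∫ x, v x * divg Φ x ≤ B := by
  have hs : ∀ i : Fin d, ContDiff ℝ ∞ (fun x => Φ x i) := fun i =>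
    (EuclideanSpace.proj i : E d →L[ℝ] ℝ).contDiff.comp hΦ.smooth
  have hcs : ∀ i : Fin d, HasCompactSupport (fun x => Φ x i) := fun i =>
    hΦ.compact.comp_left (g := fun v : E d => v i) (by simp)
  have hd : ∀ (i : Fin d) (x v : E d), fderiv ℝ (fun x => Φ x i) x v = fderiv ℝ Φ x v i := by
    intro i x v
    have h1 := ((EuclideanSpace.proj i : E d →L[ℝ] ℝ).hasFDerivAt (x := Φ x)).comp x
      ((hΦ.smooth.differentiable (by simp)) x).hasFDerivAt
    have h2 : fderiv ℝ (fun x => Φ x i) x = (EuclideanSpace.proj i : E d →L[ℝ] ℝ).comp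
      (fderiv ℝ Φ x) := h1.fderiv
    rw [h2]; rfl
  have hLi : ∀ i : Fin d, ∃ L', LipschitzWith L' (fun x => Φ x i) := fun i =>
    ContDiff.lipschitzWith_of_hasCompactSupport (hcs i) (hs i) (by simp)
  have i2 : ∀ i : Fin d, Integrable
      (fun x => v x * fderiv ℝ (fun x => Φ x i) x (EuclideanSpace.single i 1)) := fun i =>
    (hv.continuous.mul (((hs i).continuous_fderiv (by simp)).clm_apply
      continuous_const)).integrable_of_hasCompactSupport ((hcs i).fderiv_apply ℝ _).mul_left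
  have hfm : ∀ i : Fin d, Measurable fun x => fderiv ℝ v x (EuclideanSpace.single i 1) := fun i =>
    measurable_fderiv_apply_const ℝ _ _
  have hfb : ∀ (i : Fin d) x, ‖fderiv ℝ v x (EuclideanSpace.single i 1)‖ ≤ L := fun i x => by
    refine ((fderiv ℝ v x).le_opNorm _).trans ?_
    simp only [PiLp.norm_single, norm_one, mul_one]
    exact norm_fderiv_le_of_lipschitz ℝ hv
  have i1 : ∀ i : Fin d, Integrable (fun x => fderiv ℝ v x (EuclideanSpace.single i 1) * Φ x i) :=
    fun i => ((hs i).continuous.integrable_of_hasCompactSupport (hcs i)).bdd_mul (c := L)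
      (hfm i).aestronglyMeasurable (ae_of_all _ (hfb i))
  have hparts : ∀ i : Fin d, ∫ x, v x * fderiv ℝ (fun x => Φ x i) x (EuclideanSpace.single i 1) =
      - ∫ x, fderiv ℝ v x (EuclideanSpace.single i 1) * Φ x i := by
    intro i
    obtain ⟨L', hL'⟩ := hLi i
    have h1 := hv.integral_lineDeriv_mul_eq (μ := volume) hL' (hcs i) (EuclideanSpace.single i 1)
    have h2 : ∫ x, lineDeriv ℝ v x (EuclideanSpace.single i 1) * Φ x i
        = ∫ x, fderiv ℝ v x (EuclideanSpace.single i 1) * Φ x i := by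
      refine integral_congr_ae ?_
      filter_upwards [hv.ae_differentiableAt (μ := volume)] with x hx
      rw [hx.lineDeriv_eq_fderiv]
    have h3 : ∫ x, lineDeriv ℝ (fun x => Φ x i) x (-EuclideanSpace.single i 1) * v x
        = -∫ x, v x * fderiv ℝ (fun x => Φ x i) x (EuclideanSpace.single i 1) := by
      rw [← integral_neg]
      refine integral_congr_ae (ae_of_all _ fun x => ?_)
      simp only
      rw [(((hs i).differentiable (by simp)) x).lineDeriv_eq_fderiv, map_neg]
      ring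
    rw [h2, h3] at h1
    linarith
  have e1 : ∀ x, v x * divg Φ x =
      ∑ i, v x * fderiv ℝ (fun x => Φ x i) x (EuclideanSpace.single i 1) := by
    intro x
    unfold divg
    rw [Finset.mul_sum]
    exact Finset.sum_congr rfl fun i _ => by rw [hd]
  have e2 : ∀ x, fderiv ℝ v x (Φ x) = ∑ i, fderiv ℝ v x (EuclideanSpace.single i 1) * Φ x i := by
    intro x
    have hv : ∑ i, Φ x i • EuclideanSpace.single i (1:ℝ) = Φ x := by
      ext j
      simp [Pi.single_apply]
    conv_lhs => rw [← hv]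
    rw [map_sum]
    exact Finset.sum_congr rfl fun i _ => by rw [map_smul, smul_eq_mul, mul_comm]
  have e3 : ∫ x, v x * divg Φ x = - ∫ x, fderiv ℝ v x (Φ x) := by
    simp only [e1, e2]
    rw [integral_finsetSum _ (fun i _ => i2 i), integral_finsetSum _ (fun i _ => i1 i),
      ← Finset.sum_neg_distrib]
    exact Finset.sum_congr rfl fun i _ => hparts i
  rw [e3]
  have h4 : ‖∫ x, fderiv ℝ v x (Φ x)‖ₑ ≤ ENNReal.ofReal B := by
    refine (enorm_integral_le_lintegral_enorm _).trans (le_trans ?_ hB)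
    rw [← lintegral_indicator measurableSet_ball]
    refine lintegral_mono fun x => ?_
    by_cases hx : x ∈ Metric.ball (0 : E d) R
    · rw [indicator_of_mem hx, enorm_le_iff_norm_le]
      refine ((fderiv ℝ v x).le_opNorm _).trans ?_
      have h5 := hΦ.le_one x
      nlinarith [norm_nonneg (fderiv ℝ v x)]
    · rw [hR x (by simpa using hx), map_zero, enorm_zero]
      exact zero_le
  rw [← ofReal_norm, ENNReal.ofReal_le_ofReal_iff hB0, Real.norm_eq_abs] at h4
  linarith [neg_abs_le (∫ x, fderiv ℝ v x (Φ x))]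

/-- Lower semicontinuity of the variation under pointwise convergence, with truncation in
height. -/
theorem test_le_of_tendsto {U : ℕ → E d → ℝ} (hlip : ∀ n, ∃ L : ℝ≥0, LipschitzWith L (U n))
    (h0 : ∀ n x, 0 ≤ U n x) {N : E d → ℝ≥0∞} (hN : ∀ᵐ x, N x ≠ ⊤)
    (hloc : LocallyIntegrable fun x => (N x).toReal)
    (hlim : ∀ x, Tendsto (fun n => ENNReal.ofReal (U n x)) atTop (𝓝 (N x))) {B : ℝ} (hB0 : 0 ≤ B)
    (hB : ∀ R : ℝ, ∀ᶠ n in atTop, ∫⁻ x in Metric.ball (0 : E d) R, ‖fderiv ℝ (U n) x‖ₑ ≤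
      ENNReal.ofReal B) {Φ : E d → E d} (hΦ : TF Φ) :
    ∫ x, (N x).toReal * divg Φ x ≤ B := by
  have hDc := divg_continuous hΦ.smooth
  have hDs := divg_compact hΦ.compact
  obtain ⟨R, hR⟩ := hΦ.compact.isCompact.isBounded.subset_ball (0 : E d)
  have hR' : ∀ x, R ≤ ‖x‖ → Φ x = 0 := by
    intro x hx
    refine image_eq_zero_of_notMem_tsupport fun h => ?_
    have := hR h
    rw [mem_ball_zero_iff] at this
    linarith
  have hDi : Integrable (divg Φ) := hDc.integrable_of_hasCompactSupport hDs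
  have hptR : ∀ᵐ x : E d, Tendsto (fun n => U n x) atTop (𝓝 (N x).toReal) := by
    filter_upwards [hN] with x hx
    have h3 := (ENNReal.tendsto_toReal hx).comp (hlim x)
    exact h3.congr fun n => ENNReal.toReal_ofReal (h0 n x)
  -- truncated version
  have htr : ∀ l : ℝ, 0 ≤ l → ∫ x, min (N x).toReal l * divg Φ x ≤ B := by
    intro l hl
    have hT : Tendsto (fun n => ∫ x, min (U n x) l * divg Φ x) atTop
        (𝓝 (∫ x, min (N x).toReal l * divg Φ x)) := by
      refine tendsto_integral_of_dominated_convergence (fun x => l * ‖divg Φ x‖) ?_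
        (hDi.norm.const_mul l) ?_ ?_
      · intro n
        obtain ⟨L, hL⟩ := hlip n
        exact ((hL.continuous.min continuous_const).mul hDc).aestronglyMeasurable
      · intro n
        refine ae_of_all _ fun x => ?_
        rw [norm_mul]
        refine mul_le_mul_of_nonneg_right ?_ (norm_nonneg _)
        rw [Real.norm_of_nonneg (le_min (h0 n x) hl)]
        exact min_le_right _ _
      · filter_upwards [hptR] with x hx
        exact (hx.min tendsto_const_nhds).mul_const _
    refine le_of_tendsto hT ?_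
    filter_upwards [hB R] with n hn
    obtain ⟨L, hL⟩ := hlip n
    have hL' : LipschitzWith (max L 0) (fun x => min (U n x) l) := hL.min (LipschitzWith.const l)
    refine lip_test hL' hΦ hR' hB0 (le_trans ?_ hn)
    exact lintegral_mono fun x => fderiv_min_le hL.continuous l x
  have hT : Tendsto (fun k : ℕ => ∫ x, min (N x).toReal (k : ℝ) * divg Φ x) atTop
      (𝓝 (∫ x, (N x).toReal * divg Φ x)) := by
    refine tendsto_integral_of_dominated_convergence (fun x => (N x).toReal * ‖divg Φ x‖) ?_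
      ?_ ?_ ?_
    · intro k
      exact ((hloc.aestronglyMeasurable.inf aestronglyMeasurable_const).mul
        hDc.aestronglyMeasurable)
    · have := hloc.integrable_smul_left_of_hasCompactSupport hDc.norm hDs.norm
      simpa only [smul_eq_mul, mul_comm] using this
    · intro k
      refine ae_of_all _ fun x => ?_
      rw [norm_mul]
      refine mul_le_mul_of_nonneg_right ?_ (norm_nonneg _)
      rw [Real.norm_of_nonneg (le_min ENNReal.toReal_nonneg (Nat.cast_nonneg k))]
      exact min_le_left _ _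
    · refine ae_of_all _ fun x => ?_
      refine tendsto_const_nhds.congr' ?_
      obtain ⟨K, hK⟩ := exists_nat_ge (N x).toReal
      filter_upwards [eventually_ge_atTop K] with k hk
      rw [min_eq_left (hK.trans (by exact_mod_cast hk))]
  exact le_of_tendsto' hT fun k => htr k (Nat.cast_nonneg k)

/-! ### Approximations -/

theorem cut_mul_integrable {f : E d → ℝ} (hf : LocallyIntegrable f) (k : ℕ) :
    Integrable (fun x => cut k x * f x) := by
  have := hf.integrable_smul_left_of_hasCompactSupport (cut_contDiff k).continuous (cut_compact k)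
  exact this

theorem exists_bump_l1 {h : E d → ℝ} (hh : Integrable h) {ε : ℝ} (hε : 0 < ε) :
    ∃ ρ : ContDiffBump (0 : E d), ρ.rOut ≤ 1 ∧ ∫ x, ‖h x - mol ρ h x‖ ≤ ε := by
  obtain ⟨δ, hδ, h1⟩ := mol_l1_tendsto hh hε
  have hm : 0 < min δ 1 := lt_min hδ one_pos
  refine ⟨⟨min δ 1 / 2, min δ 1, by positivity, by linarith⟩, min_le_right _ _,
    h1 _ (min_le_left _ _)⟩

/-- Smooth approximations on a large ball. -/
theorem exists_approx {f : E d → ℝ} (hf : LocallyIntegrable f) {V : ℝ}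
    (hV : ∀ Φ, TF Φ → ∫ x, f x * divg Φ x ≤ V) (n : ℕ) :
    ∃ h φ : E d → ℝ, Integrable h ∧ (∀ x, |h x| ≤ |f x|) ∧
      (∀ x ∈ Metric.ball (0 : E d) (4 ^ n), h x = f x) ∧ ContDiff ℝ ∞ φ ∧ HasCompactSupport φ ∧
      ∫ x, ‖h x - φ x‖ ≤ 2⁻¹ ^ (n * (d + 1)) ∧
      ∫⁻ x in Metric.ball (0 : E d) (4 ^ n), ‖fderiv ℝ φ x‖ₑ ≤ ENNReal.ofReal V := by
  have hi := cut_mul_integrable hf (4 ^ n + 2)
  obtain ⟨ρ, hρ1, hρ2⟩ := exists_bump_l1 hi (ε := 2⁻¹ ^ (n * (d + 1))) (by positivity)
  have hsm : ContDiff ℝ ∞ (mol ρ (fun x => cut (4 ^ n + 2) x * f x)) :=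
    ρ.hasCompactSupport_normed.contDiff_convolution_left _ ρ.contDiff_normed hi.locallyIntegrable
  refine ⟨fun x => cut (4 ^ n + 2) x * f x, mol ρ (fun x => cut (4 ^ n + 2) x * f x), hi,
    fun x => ?_, fun x hx => ?_, hsm, ?_, hρ2, ?_⟩
  · rw [abs_mul, abs_of_nonneg (cut_nonneg _ _)]
    exact mul_le_of_le_one_left (abs_nonneg _) (cut_le_one _ _)
  · rw [mem_ball_zero_iff] at hx
    show cut (4 ^ n + 2) x * f x = f x
    rw [cut_eq_one (n := 4 ^ n + 2) (by push_cast; linarith), one_mul]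
  · exact ρ.hasCompactSupport_normed.convolution _ ((cut_compact _).mul_right)
  · refine grad_le_of_test hsm (k := 4 ^ n + 1) (fun Φ hΦ hz => ?_) (by linarith) (by positivity)
    refine mol_test hV hi (k := 4 ^ n + 2) (fun x hx => ?_) ρ hρ1 hΦ (fun x hx => hz x (by linarith))
    rw [cut_eq_one (n := 4 ^ n + 2) (by push_cast; linarith), one_mul]

theorem divg_smul {χ : E d → ℝ} (hχ : ContDiff ℝ ∞ χ) {Φ : E d → E d} (hΦ : ContDiff ℝ ∞ Φ)
    (x : E d) : divg (fun y => χ y • Φ y) x = χ x * divg Φ x + fderiv ℝ χ x (Φ x) := by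
  have e2 : fderiv ℝ χ x (Φ x) = ∑ i, fderiv ℝ χ x (EuclideanSpace.single i 1) * Φ x i := by
    have hv : ∑ i, Φ x i • EuclideanSpace.single i (1:ℝ) = Φ x := by
      ext j
      simp [Pi.single_apply]
    conv_lhs => rw [← hv]
    rw [map_sum]
    exact Finset.sum_congr rfl fun i _ => by rw [map_smul, smul_eq_mul, mul_comm]
  unfold divg
  rw [e2, Finset.mul_sum, ← Finset.sum_add_distrib]
  refine Finset.sum_congr rfl fun i _ => ?_
  rw [fderiv_fun_smul ((hχ.differentiable (by simp)) x) ((hΦ.differentiable (by simp)) x)]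
  simp

theorem tf_cut {Φ : E d → E d} (hΦ : TF Φ) (k : ℕ) : TF (fun x => cut k x • Φ x) := by
  refine ⟨(cut_contDiff k).smul hΦ.smooth, hΦ.compact.mono fun x hx h => hx ?_, fun x => ?_⟩
  · show cut k x • Φ x = 0
    rw [h, smul_zero]
  rw [norm_smul, Real.norm_of_nonneg (cut_nonneg k x)]
  exact mul_le_one₀ (cut_le_one k x) (norm_nonneg _) (hΦ.le_one x)

theorem grad_cut_integrable {f : E d → ℝ} (hf : LocallyIntegrable f) (k : ℕ) :
    Integrable (fun x => ‖fderiv ℝ (cut k) x‖ * |f x|) := by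
  have hcc : Continuous (fun x : E d => ‖fderiv ℝ (cut k) x‖) :=
    ((cut_contDiff k).continuous_fderiv (by simp)).norm
  have hcs : HasCompactSupport (fun x : E d => ‖fderiv ℝ (cut k) x‖) :=
    ((cut_compact k).fderiv ℝ).norm
  have := (hf.integrable_smul_left_of_hasCompactSupport hcc hcs).norm
  refine this.congr (ae_of_all _ fun x => ?_)
  simp only [smul_eq_mul, norm_mul, Real.norm_eq_abs]
  rw [abs_of_nonneg (norm_nonneg _)]

theorem int_cut_eq {f : E d → ℝ} (hf : LocallyIntegrable f) {Φ : E d → E d} (hΦ : TF Φ) (k : ℕ) :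
    ∫ x, f x * divg (fun y => cut k y • Φ y) x =
      (∫ x, (cut k x * f x) * divg Φ x) + ∫ x, f x * fderiv ℝ (cut k) x (Φ x) := by
  have hDc := divg_continuous hΦ.smooth
  have hDs := divg_compact hΦ.compact
  have i1 : Integrable (fun x => (cut k x * f x) * divg Φ x) := by
    have h1 : Integrable (fun x => divg Φ x • (cut k x * f x)) :=
      (cut_mul_integrable hf k).locallyIntegrable.integrable_smul_left_of_hasCompactSupport hDc hDs
    refine h1.congr (ae_of_all _ fun x => ?_)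
    simp only [smul_eq_mul]
    ring
  have i2 : Integrable (fun x => f x * fderiv ℝ (cut k) x (Φ x)) := by
    have hc : Continuous (fun x => fderiv ℝ (cut k) x (Φ x)) :=
      ((cut_contDiff k).continuous_fderiv (by simp)).clm_apply hΦ.smooth.continuous
    have hs : HasCompactSupport (fun x => fderiv ℝ (cut k) x (Φ x)) :=
      hΦ.compact.mono fun x hx h => hx (by simp [h])
    have h1 := hf.integrable_smul_left_of_hasCompactSupport hc hs
    refine h1.congr (ae_of_all _ fun x => ?_)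
    simp only [smul_eq_mul]
    ring
  rw [← integral_add i1 i2]
  refine integral_congr_ae (ae_of_all _ fun x => ?_)
  simp only
  rw [divg_smul (cut_contDiff k) hΦ.smooth]
  ring

theorem int_grad_cut_le {f : E d → ℝ} (hf : LocallyIntegrable f) {Φ : E d → E d} (hΦ : TF Φ)
    (k : ℕ) : |∫ x, f x * fderiv ℝ (cut k) x (Φ x)| ≤ ∫ x, ‖fderiv ℝ (cut k) x‖ * |f x| := by
  rw [← Real.norm_eq_abs]
  refine norm_integral_le_of_norm_le (grad_cut_integrable hf k) (ae_of_all _ fun x => ?_)
  rw [norm_mul, mul_comm, Real.norm_eq_abs (f x)]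
  refine mul_le_mul_of_nonneg_right ?_ (abs_nonneg _)
  refine ((fderiv ℝ (cut k) x).le_opNorm _).trans ?_
  exact mul_le_of_le_one_right (norm_nonneg _) (hΦ.le_one x)

/-- The variation of `f` times a cutoff function. -/
theorem test_cut {f : E d → ℝ} (hf : LocallyIntegrable f) {V : ℝ}
    (hV : ∀ Φ, TF Φ → ∫ x, f x * divg Φ x ≤ V) (k : ℕ) :
    ∃ W : ℝ, ∀ Φ, TF Φ → ∫ x, (cut k x * f x) * divg Φ x ≤ W := by
  refine ⟨V + ∫ x, ‖fderiv ℝ (cut k) x‖ * |f x|, fun Φ hΦ => ?_⟩
  have h1 := hV _ (tf_cut hΦ k)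
  rw [int_cut_eq hf hΦ k] at h1
  have h2 := int_grad_cut_le hf hΦ k
  linarith [neg_abs_le (∫ x, f x * fderiv ℝ (cut k) x (Φ x))]

/-- Global smooth approximations of `f` times a cutoff function. -/
theorem exists_approx_cut {f : E d → ℝ} (hf : LocallyIntegrable f) {V : ℝ}
    (hV : ∀ Φ, TF Φ → ∫ x, f x * divg Φ x ≤ V) (k : ℕ) :
    ∃ (φ : ℕ → E d → ℝ) (B : ℝ≥0∞), B ≠ ⊤ ∧ (∀ n, ContDiff ℝ ∞ (φ n)) ∧
      (∀ n, HasCompactSupport (φ n)) ∧
      (∀ n, ∫ x, ‖cut k x * f x - φ n x‖ ≤ 2⁻¹ ^ (n * (d + 1))) ∧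
      ∀ n, ∫⁻ x, ‖fderiv ℝ (φ n) x‖ₑ ≤ B := by
  obtain ⟨W, hW⟩ := test_cut hf hV k
  have hi := cut_mul_integrable hf k
  have hex : ∀ n : ℕ, ∃ ρ : ContDiffBump (0 : E d), ρ.rOut ≤ 1 ∧
      ∫ x, ‖(cut k x * f x) - mol ρ (fun x => cut k x * f x) x‖ ≤ 2⁻¹ ^ (n * (d + 1)) := fun n =>
    exists_bump_l1 hi (by positivity)
  choose ρ hρ1 hρ2 using hex
  have hsm : ∀ n, ContDiff ℝ ∞ (mol (ρ n) (fun x => cut k x * f x)) := fun n =>
    (ρ n).hasCompactSupport_normed.contDiff_convolution_left _ (ρ n).contDiff_normed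
      hi.locallyIntegrable
  have hcs : ∀ n, HasCompactSupport (mol (ρ n) (fun x => cut k x * f x)) := fun n =>
    (ρ n).hasCompactSupport_normed.convolution _ ((cut_compact _).mul_right)
  refine ⟨fun n => mol (ρ n) (fun x => cut k x * f x), ENNReal.ofReal W, ENNReal.ofReal_ne_top,
    hsm, hcs, hρ2, fun n => ?_⟩
  obtain ⟨R, hR⟩ := (hcs n).isCompact.isBounded.subset_ball (0 : E d)
  have hR2 : 0 < max R 1 := lt_max_of_lt_right one_pos
  have h1 := grad_le_of_test (hsm n) (k := max R 1 + 1) (V := W) (fun Φ hΦ hz => by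
    obtain ⟨S, hS⟩ := hΦ.compact.isCompact.isBounded.subset_ball (0 : E d)
    refine mol_test hW hi (k := max S 0 + 1) (fun x _ => rfl) (ρ n) (hρ1 n) hΦ (fun x hx => ?_)
    refine image_eq_zero_of_notMem_tsupport fun h => ?_
    have := hS h
    rw [mem_ball_zero_iff] at this
    linarith [le_max_left S 0]) (k' := max R 1) (by linarith) hR2
  refine le_trans (le_of_eq ?_) h1
  rw [← lintegral_indicator measurableSet_ball]
  refine lintegral_congr fun x => ?_
  by_cases hx : x ∈ Metric.ball (0 : E d) (max R 1)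
  · rw [indicator_of_mem hx]
  · rw [indicator_of_notMem hx]
    have h2 : x ∉ tsupport (mol (ρ n) (fun x => cut k x * f x)) := fun h =>
      hx (Metric.ball_subset_ball (le_max_left _ _) (hR h))
    have h3 : mol (ρ n) (fun x => cut k x * f x) =ᶠ[𝓝 x] fun _ => 0 :=
      notMem_tsupport_iff_eventuallyEq.1 h2
    rw [h3.fderiv_eq, fderiv_fun_const, Pi.zero_apply, ← ofReal_norm, norm_zero,
      ENNReal.ofReal_zero]

end Vale.Agent.P137.BV
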