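import Vale.Agent.P137.H838.Approx

open MeasureTheory Set Filter Topology
open scoped ENNReal NNReal ContDiff

namespace Vale.Agent.P137.BV

open Vale.Agent.P137 Vale.Agent.P137.U

variable {d : ℕ}

theorem ray_bound {φ : E d → ℝ} (hφ : ContDiff ℝ ∞ φ) {r : ℝ} (hr : 1 ≤ r) (w : E d) :
    ‖φ (r • w)‖ₑ ≤ ‖φ w‖ₑ + ∫⁻ s in Ioc 1 r, ‖fderiv ℝ φ (s • w)‖ₑ * ‖w‖ₑ := by
  have hc : Continuous (fun s : ℝ => fderiv ℝ φ (s • w) w) :=
    (((hφ.continuous_fderiv (by simp)).comp (continuous_id.smul continuous_const))).clm_apply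
      continuous_const
  have hder : ∀ s : ℝ, HasDerivAt (fun s : ℝ => φ (s • w)) (fderiv ℝ φ (s • w) w) s := by
    intro s
    have h1 : HasDerivAt (fun s : ℝ => s • w) w s := by
      simpa using (hasDerivAt_id s).smul_const w
    exact ((hφ.differentiable (by simp) (s • w)).hasFDerivAt.comp_hasDerivAt s h1)
  have h1 : ∫ s in (1 : ℝ)..r, fderiv ℝ φ (s • w) w = φ (r • w) - φ ((1 : ℝ) • w) :=
    intervalIntegral.integral_eq_sub_of_hasDerivAt (fun s _ => hder s)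
      (hc.intervalIntegrable _ _)
  rw [one_smul] at h1
  have h2 : φ (r • w) = φ w + ∫ s in Ioc 1 r, fderiv ℝ φ (s • w) w := by
    rw [← intervalIntegral.integral_of_le hr, h1]
    ring
  rw [h2]
  refine (enorm_add_le _ _).trans ?_
  gcongr
  refine (enorm_integral_le_lintegral_enorm _).trans ?_
  refine lintegral_mono fun s => ?_
  exact ContinuousLinearMap.le_opENorm _ _

theorem inner_bound (a : ℝ) (ha : 1 ≤ a) :
    ∫⁻ s in Ioi a, ENNReal.ofReal ((s ^ 2)⁻¹) = ENNReal.ofReal a⁻¹ := by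
  have ha0 : 0 < a := by linarith
  have h1 : IntegrableOn (fun s : ℝ => s ^ (-2 : ℝ)) (Ioi a) :=
    integrableOn_Ioi_rpow_of_lt (by norm_num) ha0
  have h2 : ∫ s in Ioi a, s ^ (-2 : ℝ) = a⁻¹ := by
    rw [integral_Ioi_rpow_of_lt (by norm_num) ha0]
    norm_num
    rw [Real.rpow_neg ha0.le, Real.rpow_one]
  have h3 : ∀ s ∈ Ioi a, (s ^ 2)⁻¹ = s ^ (-2 : ℝ) := by
    intro s hs
    have hs0 : 0 < s := ha0.trans hs
    rw [Real.rpow_neg hs0.le]
    norm_num
  rw [setLIntegral_congr_fun measurableSet_Ioi fun s hs => by rw [h3 s hs], ← h2]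
  refine (ofReal_integral_eq_lintegral_ofReal h1 ?_).symm
  filter_upwards [ae_restrict_mem measurableSet_Ioi] with s hs
  exact Real.rpow_nonneg (ha0.trans hs).le _

theorem scale_bound {φ : E d → ℝ} (hd : 0 < d) (hφ : ContDiff ℝ ∞ φ) {r : ℝ} (hr : 1 ≤ r) :
    ∫⁻ w in Metric.ball (0 : E d) 1, ‖φ (r • w)‖ₑ ≤ (∫⁻ w in Metric.ball (0 : E d) 1, ‖φ w‖ₑ) +
      ∫⁻ y in Metric.ball (0 : E d) r, ‖fderiv ℝ φ y‖ₑ := by
  have hG : Continuous (fderiv ℝ φ) := hφ.continuous_fderiv (by simp)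
  have hGm : Measurable fun y : E d => ‖fderiv ℝ φ y‖ₑ := hG.measurable.enorm
  have hφm : Measurable φ := hφ.continuous.measurable
  have hjm : Measurable (Function.uncurry fun (w : E d) (s : ℝ) =>
      ‖fderiv ℝ φ (s • w)‖ₑ * ‖w‖ₑ) := by
    have h1 : Continuous fun p : E d × ℝ => fderiv ℝ φ (p.2 • p.1) :=
      hG.comp (continuous_snd.smul continuous_fst)
    exact h1.measurable.enorm.mul measurable_fst.enorm
  calc ∫⁻ w in Metric.ball (0 : E d) 1, ‖φ (r • w)‖ₑ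
      ≤ ∫⁻ w in Metric.ball (0 : E d) 1, (‖φ w‖ₑ +
          ∫⁻ s in Ioc 1 r, ‖fderiv ℝ φ (s • w)‖ₑ * ‖w‖ₑ) :=
        lintegral_mono fun w => ray_bound hφ hr w
    _ = (∫⁻ w in Metric.ball (0 : E d) 1, ‖φ w‖ₑ) + ∫⁻ w in Metric.ball (0 : E d) 1,
          ∫⁻ s in Ioc 1 r, ‖fderiv ℝ φ (s • w)‖ₑ * ‖w‖ₑ := lintegral_add_left hφm.enorm _
    _ = (∫⁻ w in Metric.ball (0 : E d) 1, ‖φ w‖ₑ) + ∫⁻ s in Ioc 1 r,
          ∫⁻ w in Metric.ball (0 : E d) 1, ‖fderiv ℝ φ (s • w)‖ₑ * ‖w‖ₑ := by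
        rw [lintegral_lintegral_swap hjm.aemeasurable]
    _ ≤ (∫⁻ w in Metric.ball (0 : E d) 1, ‖φ w‖ₑ) + ∫⁻ s in Ioc 1 r,
          ∫⁻ y in Metric.ball (0 : E d) r, {q : E d | ‖q‖ < s}.indicator
            (fun q => ENNReal.ofReal ((s ^ 2)⁻¹) * (‖fderiv ℝ φ q‖ₑ * ‖q‖ₑ)) y := by
        refine add_le_add le_rfl ?_
        refine setLIntegral_mono_ae' measurableSet_Ioc (ae_of_all _ fun s hs => ?_)
        have hs0 : 0 < s := by linarith [hs.1]
        have h1 := lint_dil (d := d) hs0 (fun y => ‖fderiv ℝ φ y‖ₑ * ‖y‖ₑ) (Metric.ball 0 s)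
        have h2 : (fun y : E d => s • y) ⁻¹' Metric.ball (0 : E d) s = Metric.ball (0 : E d) 1 := by
          ext y
          simp only [mem_preimage, mem_ball_zero_iff, norm_smul, Real.norm_of_nonneg hs0.le]
          constructor
          · intro h
            nlinarith
          · intro h
            nlinarith
        rw [h2] at h1
        have h3 : ∀ w : E d, ‖fderiv ℝ φ (s • w)‖ₑ * ‖s • w‖ₑ =
            ENNReal.ofReal s * (‖fderiv ℝ φ (s • w)‖ₑ * ‖w‖ₑ) := by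
          intro w
          rw [enorm_smul, Real.enorm_of_nonneg hs0.le]
          ring
        simp_rw [h3] at h1
        rw [lintegral_const_mul' _ _ ENNReal.ofReal_ne_top] at h1
        have hs00 : ENNReal.ofReal s ≠ 0 := by simpa using hs0
        have h4 : ∫⁻ w in Metric.ball (0 : E d) 1, ‖fderiv ℝ φ (s • w)‖ₑ * ‖w‖ₑ =
            ENNReal.ofReal (s⁻¹ * (s ^ d)⁻¹) *
              ∫⁻ y in Metric.ball (0 : E d) s, ‖fderiv ℝ φ y‖ₑ * ‖y‖ₑ := by
          rw [ENNReal.ofReal_mul (by positivity), mul_assoc, ← h1, ← mul_assoc,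
            ENNReal.ofReal_inv_of_pos hs0, ENNReal.inv_mul_cancel hs00 ENNReal.ofReal_ne_top,
            one_mul]
        rw [h4]
        have h5 : s⁻¹ * (s ^ d)⁻¹ ≤ (s ^ 2)⁻¹ := by
          rw [← mul_inv]
          apply inv_anti₀ (by positivity)
          have : s ≤ s ^ d := le_self_pow₀ hs.1.le hd.ne'
          nlinarith
        have h6 : ∫⁻ y in Metric.ball (0 : E d) r, {q : E d | ‖q‖ < s}.indicator
            (fun q => ENNReal.ofReal ((s ^ 2)⁻¹) * (‖fderiv ℝ φ q‖ₑ * ‖q‖ₑ)) y =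
            ENNReal.ofReal ((s ^ 2)⁻¹) *
              ∫⁻ y in Metric.ball (0 : E d) s, ‖fderiv ℝ φ y‖ₑ * ‖y‖ₑ := by
          have h7 : {q : E d | ‖q‖ < s} = Metric.ball (0 : E d) s := by
            ext q; simp
          rw [h7, lintegral_indicator measurableSet_ball,
            Measure.restrict_restrict measurableSet_ball,
            inter_eq_left.2 (Metric.ball_subset_ball hs.2),
            lintegral_const_mul' _ _ ENNReal.ofReal_ne_top]
        rw [h6]
        gcongr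
    _ = (∫⁻ w in Metric.ball (0 : E d) 1, ‖φ w‖ₑ) + ∫⁻ y in Metric.ball (0 : E d) r,
          ∫⁻ s in Ioc 1 r, {q : E d | ‖q‖ < s}.indicator
            (fun q => ENNReal.ofReal ((s ^ 2)⁻¹) * (‖fderiv ℝ φ q‖ₑ * ‖q‖ₑ)) y := by
        rw [lintegral_lintegral_swap]
        refine Measurable.aemeasurable ?_
        have h1 : (Function.uncurry fun (s : ℝ) (y : E d) => {q : E d | ‖q‖ < s}.indicator
            (fun q => ENNReal.ofReal ((s ^ 2)⁻¹) * (‖fderiv ℝ φ q‖ₑ * ‖q‖ₑ)) y) =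
            {p : ℝ × E d | ‖p.2‖ < p.1}.indicator
              (fun p => ENNReal.ofReal ((p.1 ^ 2)⁻¹) * (‖fderiv ℝ φ p.2‖ₑ * ‖p.2‖ₑ)) := by
          funext p
          simp only [Function.uncurry, indicator, mem_ofPred_eq]
        rw [h1]
        refine Measurable.indicator ?_ (measurableSet_lt measurable_snd.norm measurable_fst)
        exact (measurable_fst.pow_const 2).inv.ennreal_ofReal.mul
          ((hGm.comp measurable_snd).mul measurable_snd.enorm)
    _ ≤ (∫⁻ w in Metric.ball (0 : E d) 1, ‖φ w‖ₑ) +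
          ∫⁻ y in Metric.ball (0 : E d) r, ‖fderiv ℝ φ y‖ₑ := by
        refine add_le_add le_rfl (lintegral_mono fun y => ?_)
        calc ∫⁻ s in Ioc 1 r, {q : E d | ‖q‖ < s}.indicator
                (fun q => ENNReal.ofReal ((s ^ 2)⁻¹) * (‖fderiv ℝ φ q‖ₑ * ‖q‖ₑ)) y
            ≤ ∫⁻ s in Ioi (max 1 ‖y‖), ENNReal.ofReal ((s ^ 2)⁻¹) *
              (‖fderiv ℝ φ y‖ₑ * ‖y‖ₑ) := by
              rw [← lintegral_indicator measurableSet_Ioc, ← lintegral_indicator measurableSet_Ioi]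
              refine lintegral_mono fun s => ?_
              simp only [indicator, mem_Ioc, mem_Ioi, mem_ofPred_eq]
              split_ifs with h1 h2 h3 h4
              · exact le_rfl
              · exact absurd (max_lt h1.1 h2) h3
              all_goals exact zero_le
          _ = ENNReal.ofReal (max 1 ‖y‖)⁻¹ * (‖fderiv ℝ φ y‖ₑ * ‖y‖ₑ) := by
              rw [lintegral_mul_const _ (by fun_prop), inner_bound _ (le_max_left _ _)]
          _ ≤ ‖fderiv ℝ φ y‖ₑ := by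
              rw [mul_comm, mul_assoc]
              refine mul_le_of_le_one_right zero_le ?_
              rw [← ofReal_norm, ← ENNReal.ofReal_mul (norm_nonneg _), ← ENNReal.ofReal_one]
              refine ENNReal.ofReal_le_ofReal ?_
              rw [← div_eq_mul_inv, div_le_one (lt_max_of_lt_left one_pos)]
              exact le_max_right _ _

/-- The averages of a function of finite variation over large balls are bounded. -/
theorem growth (hd : 0 < d) {f : E d → ℝ} (hf : LocallyIntegrable f) {V : ℝ}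
    (hV : ∀ Φ, TF Φ → ∫ x, f x * divg Φ x ≤ V) :
    ∃ A : ℝ≥0∞, A ≠ ⊤ ∧ ∀ r : ℝ, 1 ≤ r →
      ∫⁻ z in Metric.ball (0 : E d) r, ‖f z‖ₑ ≤ A * volume (Metric.ball (0 : E d) r) := by
  have hv0 : volume (Metric.ball (0 : E d) 1) ≠ 0 := (Metric.measure_ball_pos volume _ one_pos).ne'
  have hvt : volume (Metric.ball (0 : E d) 1) ≠ ⊤ := measure_ball_lt_top.ne
  have hf1 : ∫⁻ z in Metric.ball (0 : E d) 1, ‖f z‖ₑ ≠ ⊤ := by
    have h1 : IntegrableOn f (Metric.ball (0 : E d) 1) :=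
      (hf.integrableOn_isCompact (isCompact_closedBall (0 : E d) 1)).mono_set
        Metric.ball_subset_closedBall
    exact h1.2.ne
  refine ⟨((∫⁻ z in Metric.ball (0 : E d) 1, ‖f z‖ₑ) + ENNReal.ofReal V + 2) /
    volume (Metric.ball (0 : E d) 1), ?_, fun r hr => ?_⟩
  · refine ENNReal.div_ne_top ?_ hv0
    exact ENNReal.add_ne_top.2 ⟨ENNReal.add_ne_top.2 ⟨hf1, ENNReal.ofReal_ne_top⟩, by norm_num⟩
  have hr0 : 0 < r := by linarith
  obtain ⟨n, hn⟩ : ∃ n : ℕ, r ≤ (4 : ℝ) ^ n :=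
    ((tendsto_pow_atTop_atTop_of_one_lt (by norm_num : (1 : ℝ) < 4)).eventually_ge_atTop r).exists
  obtain ⟨h, φ, hh, -, heq, hφ, hφc, hcl, hgr⟩ := exists_approx hf hV n
  have hφi : Integrable φ := hφ.continuous.integrable_of_hasCompactSupport hφc
  have hcl' : ∫⁻ x, ‖h x - φ x‖ₑ ≤ 1 := by
    have h0 := ofReal_integral_norm_eq_lintegral_enorm (hh.sub hφi)
    simp only [Pi.sub_apply] at h0
    rw [← h0, ← ENNReal.ofReal_one]
    exact ENNReal.ofReal_le_ofReal (hcl.trans (pow_le_one₀ (by norm_num) (by norm_num)))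
  have hfh : ∀ s : ℝ, s ≤ 4 ^ n → ∫⁻ z in Metric.ball (0 : E d) s, ‖f z‖ₑ =
      ∫⁻ z in Metric.ball (0 : E d) s, ‖h z‖ₑ := fun s hs =>
    setLIntegral_congr_fun measurableSet_ball fun z hz => by
      rw [heq z (Metric.ball_subset_ball hs hz)]
  have hmeas : ∀ s : Set (E d), ∫⁻ z in s, (‖φ z‖ₑ + ‖h z - φ z‖ₑ) ≤
      (∫⁻ z in s, ‖φ z‖ₑ) + 1 := fun s => by
    rw [lintegral_add_left hφ.continuous.measurable.enorm]
    gcongr
    exact (setLIntegral_le_lintegral _ _).trans hcl'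
  have h1 : ∫⁻ z in Metric.ball (0 : E d) r, ‖f z‖ₑ ≤
      (∫⁻ z in Metric.ball (0 : E d) r, ‖φ z‖ₑ) + 1 := by
    rw [hfh r hn]
    refine le_trans (lintegral_mono fun z => ?_) (hmeas _)
    have : h z = φ z + (h z - φ z) := by ring
    calc ‖h z‖ₑ = ‖φ z + (h z - φ z)‖ₑ := by rw [← this]
      _ ≤ _ := enorm_add_le _ _
  have h2 : ∫⁻ z in Metric.ball (0 : E d) 1, ‖φ z‖ₑ ≤
      (∫⁻ z in Metric.ball (0 : E d) 1, ‖f z‖ₑ) + 1 := by
    rw [hfh 1 (one_le_pow₀ (by norm_num))]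
    calc ∫⁻ z in Metric.ball (0 : E d) 1, ‖φ z‖ₑ
        ≤ ∫⁻ z in Metric.ball (0 : E d) 1, (‖h z‖ₑ + ‖h z - φ z‖ₑ) := by
          refine lintegral_mono fun z => ?_
          have : φ z = h z - (h z - φ z) := by ring
          calc ‖φ z‖ₑ = ‖h z - (h z - φ z)‖ₑ := by rw [← this]
            _ ≤ _ := enorm_sub_le
      _ = (∫⁻ z in Metric.ball (0 : E d) 1, ‖h z‖ₑ) +
          ∫⁻ z in Metric.ball (0 : E d) 1, ‖h z - φ z‖ₑ :=
          lintegral_add_left' hh.aestronglyMeasurable.restrict.enorm _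
      _ ≤ _ := by
          gcongr
          exact (setLIntegral_le_lintegral _ _).trans hcl'
  have h3 : ∫⁻ z in Metric.ball (0 : E d) r, ‖φ z‖ₑ =
      ENNReal.ofReal (r ^ d) * ∫⁻ w in Metric.ball (0 : E d) 1, ‖φ (r • w)‖ₑ := by
    have h4 := lint_dil (d := d) hr0 (fun y => ‖φ y‖ₑ) (Metric.ball 0 r)
    have h5 : (fun y : E d => r • y) ⁻¹' Metric.ball (0 : E d) r = Metric.ball (0 : E d) 1 := by
      ext y
      simp only [mem_preimage, mem_ball_zero_iff, norm_smul, Real.norm_of_nonneg hr0.le]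
      constructor
      · intro h
        nlinarith
      · intro h
        nlinarith
    rw [h5] at h4
    rw [h4, ← mul_assoc, ← ENNReal.ofReal_mul (by positivity), mul_inv_cancel₀ (by positivity),
      ENNReal.ofReal_one, one_mul]
  have h6 := scale_bound hd hφ hr
  have h7 : ∫⁻ y in Metric.ball (0 : E d) r, ‖fderiv ℝ φ y‖ₑ ≤ ENNReal.ofReal V :=
    (lintegral_mono_set (Metric.ball_subset_ball hn)).trans hgr
  have h8 : (1 : ℝ≥0∞) ≤ ENNReal.ofReal (r ^ d) := by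
    rw [← ENNReal.ofReal_one]
    exact ENNReal.ofReal_le_ofReal (one_le_pow₀ hr)
  calc ∫⁻ z in Metric.ball (0 : E d) r, ‖f z‖ₑ
      ≤ ENNReal.ofReal (r ^ d) * (((∫⁻ z in Metric.ball (0 : E d) 1, ‖f z‖ₑ) + 1) +
        ENNReal.ofReal V) + ENNReal.ofReal (r ^ d) * 1 := by
        refine h1.trans (add_le_add ?_ (by rw [mul_one]; exact h8))
        rw [h3]
        gcongr
        exact h6.trans (add_le_add h2 h7)
    _ = ENNReal.ofReal (r ^ d) * ((∫⁻ z in Metric.ball (0 : E d) 1, ‖f z‖ₑ) +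
        ENNReal.ofReal V + 2) := by
        rw [← mul_add]
        congr 1
        ring
    _ = ((∫⁻ z in Metric.ball (0 : E d) 1, ‖f z‖ₑ) + ENNReal.ofReal V + 2) /
        volume (Metric.ball (0 : E d) 1) * volume (Metric.ball (0 : E d) r) := by
        rw [Measure.addHaar_ball_of_pos _ _ hr0, finrank_euclideanSpace, Fintype.card_fin,
          mul_comm (ENNReal.ofReal (r ^ d)) (volume _), ← mul_assoc,
          ENNReal.div_mul_cancel hv0 hvt, mul_comm]

end Vale.Agent.P137.BV
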