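import Vale.Agent.P137.H838.Tend
import Vale.Agent.P137.H838.Growth

open MeasureTheory Set Filter Topology
open scoped ENNReal NNReal ContDiff

namespace Vale.Agent.P137.BV

open Vale.Agent.P137 Vale.Agent.P137.U

variable {d : ℕ}

/-- What is used of a maximal operator and its truncations. -/
structure Op (d : ℕ) where
  U : (E d → ℝ) → ℝ → ℝ → E d → ℝ
  N : (E d → ℝ) → E d → ℝ≥0∞
  C : ℝ≥0
  C' : ℝ≥0
  lip : ∀ F : E d → ℝ, ContDiff ℝ 1 F → HasCompactSupport F → ∀ δ R : ℝ, 0 < δ → δ ≤ R →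
    ∃ L : ℝ≥0, LipschitzWith L (U F δ R)
  nonneg : ∀ F : E d → ℝ, Continuous F → HasCompactSupport F → (∀ x, 0 ≤ F x) →
    ∀ δ R : ℝ, 0 < δ → δ ≤ R → ∀ x, 0 ≤ U F δ R x
  core : ∀ f : E d → ℝ, ContDiff ℝ 1 f → HasCompactSupport f → ∀ δ : ℝ, 0 < δ →
    ∀ (K : ℕ) (S : Set (E d)), MeasurableSet S →
    ∫⁻ x in S, ‖fderiv ℝ (U f δ (2 * 2 ^ K * δ)) x‖ₑ ≤
      C * ∫⁻ x in Metric.thickening (C' * 2 ^ K * δ) S, ‖fderiv ℝ f x‖ₑ
  tend : ∀ (f : E d → ℝ) (h φ : ℕ → E d → ℝ), (∀ n, Integrable (h n)) →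
    (∀ n x, |h n x| ≤ |f x|) → (∀ n, ∀ x ∈ Metric.ball (0 : E d) (4 ^ n), h n x = f x) →
    (∀ n, Continuous (φ n)) → (∀ n, HasCompactSupport (φ n)) → (∀ n x, 0 ≤ φ n x) →
    (∀ n, ∃ a b : ℝ, 0 ≤ a ∧ 0 ≤ b ∧ a ≤ 2⁻¹ ^ n ∧ b ≤ 2⁻¹ ^ (n * (d + 1)) ∧
      ∃ ψ : E d → ℝ, Integrable ψ ∧ (∀ x, 0 ≤ ψ x) ∧ (∀ x, |φ n x - abs (h n x)| ≤ a + ψ x) ∧
        ∫ x, ψ x ≤ b) → ∀ x : E d,
    Tendsto (fun n => ENNReal.ofReal (U (φ n) (2⁻¹ ^ n) (2 ^ n) x)) atTop (𝓝 (N f x))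
  ball : ∀ (h : E d → ℝ) (φ : ℕ → E d → ℝ), Integrable h → (∀ n, ContDiff ℝ ∞ (φ n)) →
    (∀ n, HasCompactSupport (φ n)) → (∀ n, ∫ x, ‖h x - φ n x‖ ≤ 2⁻¹ ^ (n * (d + 1))) →
    ∀ B : ℝ≥0∞, B ≠ ⊤ → (∀ n, ∫⁻ x, ‖fderiv ℝ (φ n) x‖ₑ ≤ B) → ∀ R : ℝ, 0 < R →
    ∫⁻ x in Metric.ball (0 : E d) R, N h x ≠ ⊤
  large : ∀ (f h : E d → ℝ) (A : ℝ≥0∞),
    (∀ r : ℝ, 1 ≤ r → ∫⁻ z in Metric.ball (0 : E d) r, ‖f z‖ₑ ≤
      A * volume (Metric.ball (0 : E d) r)) → ∀ R : ℝ, 0 < R →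
    (∀ x, ‖x‖ < R + 2 → h x = f x) → ∀ x : E d, ‖x‖ < R →
    N f x ≤ N h x + ENNReal.ofReal ((R + 2) ^ d) * A

theorem ev_scale (R : ℝ) (C' : ℝ≥0) : ∀ᶠ n : ℕ in atTop,
    1 ≤ n ∧ C' * 2 ^ (2 * n - 1) * 2⁻¹ ^ n + R ≤ (4 : ℝ) ^ n := by
  have h3 : ∀ᶠ n : ℕ in atTop, (C' : ℝ) + 1 ≤ (2 : ℝ) ^ n :=
    (tendsto_pow_atTop_atTop_of_one_lt (by norm_num : (1 : ℝ) < 2)).eventually_ge_atTop _
  have h4 : ∀ᶠ n : ℕ in atTop, R ≤ (2 : ℝ) ^ n :=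
    (tendsto_pow_atTop_atTop_of_one_lt (by norm_num : (1 : ℝ) < 2)).eventually_ge_atTop _
  filter_upwards [h3, h4, eventually_ge_atTop 1] with n h5 h6 h7
  refine ⟨h7, ?_⟩
  have e1 : (2 : ℝ) ^ (2 * n - 1) * 2⁻¹ ^ n ≤ 2 ^ n := by
    have h8 : (2 : ℝ) ^ (2 * n - 1) ≤ 2 ^ (n + n) :=
      pow_le_pow_right₀ (by norm_num) (by omega)
    calc (2 : ℝ) ^ (2 * n - 1) * 2⁻¹ ^ n ≤ 2 ^ (n + n) * 2⁻¹ ^ n := by gcongr
      _ = 2 ^ n := by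
        rw [pow_add, mul_assoc, ← mul_pow]
        norm_num
  have e2 : (4 : ℝ) ^ n = 2 ^ n * 2 ^ n := by
    rw [← mul_pow]; norm_num
  have h9 : (0 : ℝ) < 2 ^ n := by positivity
  rw [e2, mul_assoc]
  have h10 : (0 : ℝ) ≤ C' := NNReal.coe_nonneg C'
  calc (C' : ℝ) * (2 ^ (2 * n - 1) * 2⁻¹ ^ n) + R ≤ C' * 2 ^ n + 2 ^ n := by gcongr
    _ = (C' + 1) * 2 ^ n := by ring
    _ ≤ 2 ^ n * 2 ^ n := by gcongr

/-- The main theorem for one operator. -/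
theorem Op.main (O : Op d) (hd : 0 < d) {f : E d → ℝ} (hf : LocallyIntegrable f) {V : ℝ}
    (hV0 : 0 ≤ V) (hV : ∀ Φ, TF Φ → ∫ x, f x * divg Φ x ≤ V) :
    (∀ᵐ x, O.N f x ≠ ⊤) ∧ LocallyIntegrable (fun x => (O.N f x).toReal) ∧
      ∀ Φ, TF Φ → ∫ x, (O.N f x).toReal * divg Φ x ≤ O.C * V := by
  choose h φ hh hle heq hφ hφc hcl hgr using exists_approx hf hV
  have hφi : ∀ n, Integrable (φ n) := fun n =>
    (hφ n).continuous.integrable_of_hasCompactSupport (hφc n)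
  have hF1 : ∀ n, ContDiff ℝ 1 (faS (2⁻¹ ^ n) (φ n)) := fun n =>
    faS_contDiff (fa_pow_pos n) (hφ n)
  have hF2 : ∀ n, HasCompactSupport (faS (2⁻¹ ^ n) (φ n)) := fun n =>
    faS_compact (fa_pow_pos n) (hφc n)
  have hlim : ∀ x, Tendsto (fun n => ENNReal.ofReal
      (O.U (faS (2⁻¹ ^ n) (φ n)) (2⁻¹ ^ n) (2 ^ n) x)) atTop (𝓝 (O.N f x)) := by
    intro x
    refine O.tend f h (fun n => faS (2⁻¹ ^ n) (φ n)) hh hle heq (fun n => (hF1 n).continuous) hF2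
      (fun n x => faS_nonneg _ _) (fun n => ?_) x
    refine ⟨2⁻¹ ^ n, 2⁻¹ ^ (n * (d + 1)), by positivity, by positivity, le_rfl, le_rfl,
      fun x => ‖h n x - φ n x‖, ((hh n).sub (hφi n)).norm, fun x => norm_nonneg _, ?_, hcl n⟩
    intro x
    have h1 := faS_le (fa_pow_pos n) (φ n) x
    have h2 := faS_ge (ε := 2⁻¹ ^ n) (φ n) x
    have h3 : |abs (φ n x) - abs (h n x)| ≤ ‖h n x - φ n x‖ := by
      rw [Real.norm_eq_abs, abs_sub_comm (h n x)]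
      exact abs_abs_sub_abs_le _ _
    have h4 := abs_le.1 h3
    have h5 := fa_pow_pos n
    rw [abs_le]
    constructor <;> linarith only [h1, h5, h4.2, h2, h4.1]
  have hlip : ∀ n, ∃ L : ℝ≥0, LipschitzWith L (O.U (faS (2⁻¹ ^ n) (φ n)) (2⁻¹ ^ n) (2 ^ n)) :=
    fun n => O.lip _ (hF1 n) (hF2 n) _ _ (fa_pow_pos n) (fa_pow_le n)
  have hnn : ∀ n x, 0 ≤ O.U (faS (2⁻¹ ^ n) (φ n)) (2⁻¹ ^ n) (2 ^ n) x := fun n x =>
    O.nonneg _ (hF1 n).continuous (hF2 n) (fun _ => faS_nonneg _ _) _ _ (fa_pow_pos n)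
      (fa_pow_le n) x
  have hNm : Measurable (O.N f) := by
    refine measurable_of_tendsto_metrizable (f := fun n x => ENNReal.ofReal
      (O.U (faS (2⁻¹ ^ n) (φ n)) (2⁻¹ ^ n) (2 ^ n) x)) (fun n => ?_)
      (tendsto_pi_nhds.2 hlim)
    obtain ⟨L, hL⟩ := hlip n
    exact ENNReal.measurable_ofReal.comp hL.continuous.measurable
  obtain ⟨A, hA, hAr⟩ := growth hd hf hV
  have hball : ∀ R : ℝ, 0 < R → ∫⁻ x in Metric.ball (0 : E d) R, O.N f x ≠ ⊤ := by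
    intro R hR
    obtain ⟨k, hk⟩ := exists_nat_ge (R + 2)
    obtain ⟨φ', B, hB, h1, h2, h3, h4⟩ := exists_approx_cut hf hV k
    have h5 := O.ball (fun x => cut k x * f x) φ' (cut_mul_integrable hf k) h1 h2 h3 B hB h4 R hR
    have h6 : ∀ x ∈ Metric.ball (0 : E d) R, O.N f x ≤
        O.N (fun x => cut k x * f x) x + ENNReal.ofReal ((R + 2) ^ d) * A := by
      intro x hx
      refine O.large f _ A hAr R hR (fun y hy => ?_) x (by simpa using hx)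
      rw [cut_eq_one (by linarith), one_mul]
    have hct : ENNReal.ofReal ((R + 2) ^ d) * A ≠ ⊤ := ENNReal.mul_ne_top ENNReal.ofReal_ne_top hA
    refine ne_top_of_le_ne_top ?_ (setLIntegral_mono_ae' measurableSet_ball (ae_of_all _ h6))
    rw [lintegral_add_right _ measurable_const, setLIntegral_const]
    exact ENNReal.add_ne_top.2 ⟨h5, ENNReal.mul_ne_top hct measure_ball_lt_top.ne⟩
  have hfin : ∀ᵐ x, O.N f x ≠ ⊤ := by
    have h1 : ∀ k : ℕ, ∀ᵐ x : E d, x ∈ Metric.ball (0 : E d) (k + 1) → O.N f x < ⊤ := by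
      intro k
      rw [← ae_restrict_iff' measurableSet_ball]
      exact MeasureTheory.ae_lt_top hNm (hball _ (by positivity))
    rw [← ae_all_iff] at h1
    filter_upwards [h1] with x hx
    obtain ⟨k, hk⟩ := exists_nat_gt ‖x‖
    refine (hx k ?_).ne
    rw [mem_ball_zero_iff]
    linarith only [hk]
  have hloc : LocallyIntegrable fun x => (O.N f x).toReal := by
    rw [locallyIntegrable_iff]
    intro K hK
    obtain ⟨R, hR⟩ := hK.isBounded.subset_ball (0 : E d)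
    have hR' : K ⊆ Metric.ball (0 : E d) (max R 1) :=
      hR.trans (Metric.ball_subset_ball (le_max_left _ _))
    refine IntegrableOn.mono_set ?_ hR'
    refine ⟨hNm.ennreal_toReal.aestronglyMeasurable, ?_⟩
    rw [hasFiniteIntegral_iff_enorm]
    refine lt_of_le_of_lt (lintegral_mono fun x => ?_)
      (hball (max R 1) (lt_max_of_lt_right one_pos)).lt_top
    rw [Real.enorm_of_nonneg ENNReal.toReal_nonneg]
    exact ENNReal.ofReal_toReal_le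
  refine ⟨hfin, hloc, fun Φ hΦ => ?_⟩
  refine test_le_of_tendsto hlip hnn hfin hloc hlim (by positivity) (fun R => ?_) hΦ
  filter_upwards [ev_scale R O.C'] with n hn
  obtain ⟨hn1, hn2⟩ := hn
  have h1 := O.core (faS (2⁻¹ ^ n) (φ n)) (hF1 n) (hF2 n) (2⁻¹ ^ n) (fa_pow_pos n) (2 * n - 1)
    (Metric.ball 0 R) measurableSet_ball
  have h2 : (2 : ℝ) * 2 ^ (2 * n - 1) * 2⁻¹ ^ n = 2 ^ n := by
    rw [← pow_succ', show 2 * n - 1 + 1 = n + n by omega, pow_add, mul_assoc, ← mul_pow]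
    norm_num
  rw [h2] at h1
  refine h1.trans ?_
  rw [ENNReal.ofReal_mul (NNReal.coe_nonneg O.C), ENNReal.ofReal_coe_nnreal]
  gcongr
  refine le_trans ?_ (hgr n)
  refine le_trans (lintegral_mono_set (t := Metric.ball (0 : E d) (4 ^ n)) ?_) ?_
  · intro x hx
    rw [Metric.mem_thickening_iff] at hx
    obtain ⟨z, hz, hxz⟩ := hx
    rw [mem_ball_zero_iff] at hz ⊢
    have h3 : ‖x‖ ≤ dist x z + ‖z‖ := by
      have := norm_le_norm_sub_add x z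
      rwa [← dist_eq_norm] at this
    linarith
  · refine lintegral_mono fun x => ?_
    rw [enorm_le_iff_norm_le]
    exact faS_fderiv (fa_pow_pos n) (hφ n) x

end Vale.Agent.P137.BV
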