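import Vale.Agent.P137.H838.Loc
import Vale.Agent.P137.H838.Op

open MeasureTheory Set Filter Topology
open scoped ENNReal NNReal ContDiff

namespace Vale.Agent.P137.BV

open Vale.Agent.P137 Vale.Agent.P137.U

variable {d : ℕ}

/-- More properties of a maximal operator and its truncations. -/
structure Op2 (d : ℕ) extends Op d where
  large_grad : ∀ f : E d → ℝ, ContDiff ℝ 1 f → HasCompactSupport f → ∀ δ₀ δ R : ℝ, 0 < δ →
    δ ≤ δ₀ → δ₀ ≤ R → ∀ x : E d, DifferentiableAt ℝ (U f δ R) x →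
    DifferentiableAt ℝ (U f δ δ₀) x →
    ‖fderiv ℝ (U f δ R) x‖ₑ ≤ ‖fderiv ℝ (U f δ δ₀) x‖ₑ +
      (∫⁻ z in Metric.closedBall x (2 * R), ‖fderiv ℝ f z‖ₑ) / volume (Metric.ball (0 : E d) δ₀)
  le_max : ∀ F φ : E d → ℝ, Integrable F → Integrable φ → (∀ x, F x ≤ |φ x|) →
    ∀ δ R : ℝ, 0 < δ → δ ≤ R → ∀ x, ENNReal.ofReal (U F δ R x) ≤ N φ x
  mol_le : ∀ (ρ : ContDiffBump (0 : E d)) (h : E d → ℝ), Integrable h → ∀ x,
    N (mol ρ h) x ≤ ∫⁻ t, ENNReal.ofReal (ρ.normed volume t) * N h (x - t)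
  mono : ∀ f h : E d → ℝ, (∀ x, |h x| ≤ |f x|) → ∀ x, N h x ≤ N f x

theorem Op2.dom (O : Op2 d) {f h : E d → ℝ} (hh : Integrable h) (hle : ∀ x, |h x| ≤ |f x|)
    (ρ : ContDiffBump (0 : E d)) (hfin : ∀ᵐ x, O.N f x ≠ ⊤)
    (hloc : LocallyIntegrable (fun x => (O.N f x).toReal)) (x : E d) :
    O.N (mol ρ h) x ≤ ENNReal.ofReal (mol ρ (fun z => (O.N f z).toReal) x) := by
  refine (O.mol_le ρ h hh x).trans ?_
  have hex : Integrable (fun t => ρ.normed volume t • (O.N f (x - t)).toReal) :=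
    mol_exists ρ hloc x
  rw [mol_apply, ofReal_integral_eq_lintegral_ofReal hex
    (ae_of_all _ fun t => mul_nonneg (ρ.nonneg_normed _) ENNReal.toReal_nonneg)]
  have h1 : ∀ᵐ t : E d, O.N f (x - t) ≠ ⊤ :=
    (quasiMeasurePreserving_sub_left volume x).ae hfin
  refine lintegral_mono_ae ?_
  filter_upwards [h1] with t ht
  rw [smul_eq_mul, ENNReal.ofReal_mul (ρ.nonneg_normed _), ENNReal.ofReal_toReal ht]
  gcongr
  exact O.mono f h hle _

theorem mol_eq_of_near {F : Type*} [NormedAddCommGroup F] [NormedSpace ℝ F]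
    (ρ : ContDiffBump (0 : E d)) (hρ : ρ.rOut ≤ 1) {u v : E d → F} {x : E d}
    (h : ∀ z, ‖z‖ < ‖x‖ + 1 → u z = v z) : mol ρ u x = mol ρ v x := by
  rw [mol_apply, mol_apply]
  refine integral_congr_ae (ae_of_all _ fun t => ?_)
  simp only
  by_cases ht : ρ.normed volume t = 0
  · rw [ht, zero_smul, zero_smul]
  · have ht1 : ‖t‖ < 1 := by
      have h2 : t ∈ Function.support (ρ.normed volume) := ht
      rw [ρ.support_normed_eq, Metric.mem_ball, dist_zero_right] at h2
      exact h2.trans_le hρ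
    rw [h (x - t) (by have := norm_sub_le x t; linarith)]

/-- Mollifications of a locally integrable function converge locally in `L^1`. -/
theorem mol_loc {u : E d → ℝ} (hu : LocallyIntegrable u) {ρ : ℕ → ContDiffBump (0 : E d)}
    (hρ : ∀ n, (ρ n).rOut ≤ 2⁻¹ ^ n) (R : ℝ) :
    Tendsto (fun n => ∫⁻ x in Metric.ball (0 : E d) R, ‖mol (ρ n) u x - u x‖ₑ) atTop (𝓝 0) := by
  obtain ⟨k, hk⟩ := exists_nat_ge R
  have hw := cut_mul_integrable hu (k + 1)
  have hρ1 : ∀ n, (ρ n).rOut ≤ 1 := fun n =>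
    (hρ n).trans (pow_le_one₀ (by norm_num) (by norm_num))
  rw [ENNReal.tendsto_nhds_zero]
  intro ε hε
  rcases eq_or_ne ε ⊤ with rfl | hεt
  · exact Eventually.of_forall fun _ => le_top
  obtain ⟨δ, hδ, h1⟩ := mol_l1_tendsto hw (ENNReal.toReal_pos hε.ne' hεt)
  have h2 : ∀ᶠ n : ℕ in atTop, (2⁻¹ : ℝ) ^ n < δ :=
    (tendsto_pow_atTop_nhds_zero_of_lt_one (by norm_num) (by norm_num :
      (2⁻¹ : ℝ) < 1)).eventually_lt_const hδ
  filter_upwards [h2] with n hn
  have h3 := h1 (ρ n) ((hρ n).trans hn.le)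
  have hi := hw.sub (mol_integrable (ρ n) hw)
  calc ∫⁻ x in Metric.ball (0 : E d) R, ‖mol (ρ n) u x - u x‖ₑ
      ≤ ∫⁻ x in Metric.ball (0 : E d) R, ‖cut (k + 1) x * u x -
          mol (ρ n) (fun x => cut (k + 1) x * u x) x‖ₑ := by
        refine setLIntegral_mono_ae' measurableSet_ball (ae_of_all _ fun x hx => ?_)
        rw [mem_ball_zero_iff] at hx
        rw [mol_eq_of_near (ρ n) (hρ1 n) (u := u) (v := fun x => cut (k + 1) x * u x)
          (fun z hz => by rw [cut_eq_one (by push_cast; linarith), one_mul]),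
          cut_eq_one (n := k + 1) (x := x) (by push_cast; linarith), one_mul,
          ← enorm_neg, neg_sub]
    _ ≤ ∫⁻ x, ‖cut (k + 1) x * u x - mol (ρ n) (fun x => cut (k + 1) x * u x) x‖ₑ :=
        setLIntegral_le_lintegral _ _
    _ = ENNReal.ofReal (∫ x, ‖cut (k + 1) x * u x -
          mol (ρ n) (fun x => cut (k + 1) x * u x) x‖) :=
        (ofReal_integral_norm_eq_lintegral_enorm hi).symm
    _ ≤ ε := by
        rw [← ENNReal.ofReal_toReal hεt]
        exact ENNReal.ofReal_le_ofReal h3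

/-- Local `L^1` convergence of the truncated maximal functions. -/
theorem Op2.L1 (O : Op2 d) {f : E d → ℝ} {h : ℕ → E d → ℝ} (hh : ∀ n, Integrable (h n))
    (hle : ∀ n x, |h n x| ≤ |f x|) {ρ : ℕ → ContDiffBump (0 : E d)}
    (hρ : ∀ n, (ρ n).rOut ≤ 2⁻¹ ^ n) (hsm : ∀ n, ContDiff ℝ ∞ (mol (ρ n) (h n)))
    (hcs : ∀ n, HasCompactSupport (mol (ρ n) (h n)))
    (hfin : ∀ᵐ x, O.N f x ≠ ⊤) (hloc : LocallyIntegrable (fun x => (O.N f x).toReal))
    (hlim : ∀ x, Tendsto (fun n => ENNReal.ofReal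
      (O.U (faS (2⁻¹ ^ n) (mol (ρ n) (h n))) (2⁻¹ ^ n) (2 ^ n) x)) atTop (𝓝 (O.N f x)))
    (R : ℝ) :
    Tendsto (fun n => ∫⁻ x in Metric.ball (0 : E d) R,
      ‖O.U (faS (2⁻¹ ^ n) (mol (ρ n) (h n))) (2⁻¹ ^ n) (2 ^ n) x - (O.N f x).toReal‖ₑ) atTop
      (𝓝 0) := by
  set u : E d → ℝ := fun x => (O.N f x).toReal with hu
  set un : ℕ → E d → ℝ := fun n => O.U (faS (2⁻¹ ^ n) (mol (ρ n) (h n))) (2⁻¹ ^ n) (2 ^ n)
    with hun
  have hF1 : ∀ n, ContDiff ℝ 1 (faS (2⁻¹ ^ n) (mol (ρ n) (h n))) := fun n =>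
    faS_contDiff (fa_pow_pos n) (hsm n)
  have hF2 : ∀ n, HasCompactSupport (faS (2⁻¹ ^ n) (mol (ρ n) (h n))) := fun n =>
    faS_compact (fa_pow_pos n) (hcs n)
  have hcont : ∀ n, Continuous (un n) := fun n => by
    obtain ⟨L, hL⟩ := O.lip _ (hF1 n) (hF2 n) _ _ (fa_pow_pos n) (fa_pow_le n)
    exact hL.continuous
  have hnn : ∀ n x, 0 ≤ un n x := fun n x =>
    O.nonneg _ (hF1 n).continuous (hF2 n) (fun _ => faS_nonneg _ _) _ _ (fa_pow_pos n)
      (fa_pow_le n) x
  have hmol0 : ∀ n x, 0 ≤ mol (ρ n) u x := fun n x =>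
    integral_nonneg fun t => mul_nonneg ((ρ n).nonneg_normed _) ENNReal.toReal_nonneg
  have hdom : ∀ n x, un n x ≤ mol (ρ n) u x := by
    intro n x
    have h1 := O.le_max (faS (2⁻¹ ^ n) (mol (ρ n) (h n))) (mol (ρ n) (h n))
      ((hF1 n).continuous.integrable_of_hasCompactSupport (hF2 n))
      (mol_integrable (ρ n) (hh n)) (fun x => faS_le (fa_pow_pos n) _ x) _ _ (fa_pow_pos n)
      (fa_pow_le n) x
    have h2 := h1.trans (O.dom (hh n) (hle n) (ρ n) hfin hloc x)
    exact (ENNReal.ofReal_le_ofReal_iff (hmol0 n x)).1 h2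
  have hptR : ∀ᵐ x : E d, Tendsto (fun n => un n x) atTop (𝓝 (u x)) := by
    filter_upwards [hfin] with x hx
    have h3 := (ENNReal.tendsto_toReal hx).comp (hlim x)
    exact h3.congr fun n => ENNReal.toReal_ofReal (hnn n x)
  have hum : AEStronglyMeasurable u := hloc.aestronglyMeasurable
  have hT2 : Tendsto (fun n => ∫⁻ x in Metric.ball (0 : E d) R, ‖max (u x - un n x) 0‖ₑ) atTop
      (𝓝 0) := by
    have h1 : Tendsto (fun n => ∫⁻ x in Metric.ball (0 : E d) R, ‖max (u x - un n x) 0‖ₑ) atTop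
        (𝓝 (∫⁻ x in Metric.ball (0 : E d) R, (0 : ℝ≥0∞))) := by
      refine tendsto_lintegral_of_dominated_convergence' (fun x => ‖u x‖ₑ) ?_ ?_ ?_ ?_
      · intro n
        exact (((hum.sub (hcont n).aestronglyMeasurable).sup
          aestronglyMeasurable_const).enorm).restrict
      · intro n
        refine ae_of_all _ fun x => ?_
        rw [enorm_le_iff_norm_le, Real.norm_of_nonneg (le_max_right _ _)]
        refine max_le ?_ (norm_nonneg _)
        rw [Real.norm_of_nonneg (ENNReal.toReal_nonneg)]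
        linarith [hnn n x]
      · have h2 : IntegrableOn u (Metric.ball (0 : E d) R) :=
          (hloc.integrableOn_isCompact (isCompact_closedBall (0 : E d) R)).mono_set
            Metric.ball_subset_closedBall
        exact h2.2.ne
      · refine ae_restrict_of_ae ?_
        filter_upwards [hptR] with x hx
        have h3 : Tendsto (fun n => max (u x - un n x) 0) atTop (𝓝 (max (u x - u x) 0)) :=
          (tendsto_const_nhds.sub hx).max tendsto_const_nhds
        rw [sub_self, max_self] at h3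
        have h4 := (continuous_enorm.tendsto (0 : ℝ)).comp h3
        rw [enorm_zero] at h4
        exact h4
    simpa only [lintegral_zero] using h1
  have hT1 := mol_loc hloc hρ R
  have hT := hT1.add hT2
  rw [add_zero] at hT
  refine tendsto_of_tendsto_of_tendsto_of_le_of_le tendsto_const_nhds hT (fun _ => bot_le)
    fun n => ?_
  have hm : AEMeasurable (fun x => ‖mol (ρ n) u x - u x‖ₑ)
      (volume.restrict (Metric.ball (0 : E d) R)) := by
    have h1 : Continuous (mol (ρ n) u) :=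
      (ρ n).hasCompactSupport_normed.continuous_convolution_left _ (ρ n).continuous_normed hloc
    exact ((h1.aestronglyMeasurable.sub hum).enorm).restrict
  rw [← lintegral_add_left' hm]
  refine lintegral_mono fun x => ?_
  have h5 : ‖un n x - u x‖ ≤ ‖mol (ρ n) u x - u x‖ + ‖max (u x - un n x) 0‖ := by
    rw [Real.norm_eq_abs, Real.norm_eq_abs, Real.norm_of_nonneg (le_max_right _ _)]
    rcases le_total (u x) (un n x) with h6 | h6
    · rw [abs_of_nonneg (by linarith), abs_of_nonneg (by linarith [hdom n x])]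
      linarith [hdom n x, le_max_right (u x - un n x) 0]
    · rw [abs_of_nonpos (by linarith)]
      linarith [abs_nonneg (mol (ρ n) u x - u x), le_max_left (u x - un n x) 0]
  calc ‖un n x - u x‖ₑ = ENNReal.ofReal ‖un n x - u x‖ := (ofReal_norm _).symm
    _ ≤ ENNReal.ofReal (‖mol (ρ n) u x - u x‖ + ‖max (u x - un n x) 0‖) :=
        ENNReal.ofReal_le_ofReal h5
    _ = _ := by rw [ENNReal.ofReal_add (norm_nonneg _) (norm_nonneg _), ofReal_norm, ofReal_norm]

end Vale.Agent.P137.BV
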