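import Vale.Agent.P137.StatementC
import Vale.Agent.P137.StatementU

open MeasureTheory Metric
open scoped ENNReal ContDiff

namespace Vale.Agent.P137

/-- The divergence of a vector field on `ℝ^d`. -/
noncomputable def divg {d : ℕ} (Φ : EuclideanSpace ℝ (Fin d) → EuclideanSpace ℝ (Fin d))
    (x : EuclideanSpace ℝ (Fin d)) : ℝ :=
  ∑ i, fderiv ℝ Φ x (EuclideanSpace.single i 1) i

/-- The total variation of `f` on `ℝ^d`, with values in `[0, ∞]`: the supremum of `∫ f div Φ` over
the smooth compactly supported vector fields `Φ` with `|Φ| ≤ 1` everywhere. -/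
noncomputable def totalVar {d : ℕ} (f : EuclideanSpace ℝ (Fin d) → ℝ) : ℝ≥0∞ :=
  ⨆ (Φ : EuclideanSpace ℝ (Fin d) → EuclideanSpace ℝ (Fin d)) (_ : ContDiff ℝ ∞ Φ)
    (_ : HasCompactSupport Φ) (_ : ∀ x, ‖Φ x‖ ≤ 1), ENNReal.ofReal (∫ x, f x * divg Φ x)

/-- For all locally integrable `f` of finite total variation the centered maximal function is
finite almost everywhere, locally integrable, and its total variation is at most `C` times that
of `f`. -/
def CenteredVariation (d : ℕ) (C : ℝ) : Prop :=
  ∀ f : EuclideanSpace ℝ (Fin d) → ℝ, LocallyIntegrable f → totalVar f ≠ ⊤ →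
    (∀ᵐ x, maximalFn f x ≠ ⊤) ∧ LocallyIntegrable (fun x => (maximalFn f x).toReal) ∧
      totalVar (fun x => (maximalFn f x).toReal) ≤ ENNReal.ofReal C * totalVar f

/-- For all locally integrable `f` of finite total variation the uncentered maximal function is
finite almost everywhere, locally integrable, and its total variation is at most `C` times that
of `f`. -/
def UncenteredVariation (d : ℕ) (C : ℝ) : Prop :=
  ∀ f : EuclideanSpace ℝ (Fin d) → ℝ, LocallyIntegrable f → totalVar f ≠ ⊤ →
    (∀ᵐ x, uncenteredFn f x ≠ ⊤) ∧ LocallyIntegrable (fun x => (uncenteredFn f x).toReal) ∧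
      totalVar (fun x => (uncenteredFn f x).toReal) ≤ ENNReal.ofReal C * totalVar f

end Vale.Agent.P137
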