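import Vale.Agent.P137.H838.Defs

open MeasureTheory Metric
open scoped ENNReal ContDiff

namespace Vale.Agent.P137

/-- For all locally integrable `f` on `ℝ^d` with an integrable weak gradient `g` (`f` itself need
not be integrable) the centered maximal function is finite almost everywhere and in
`W^{1,1}_loc`, with the endpoint gradient bound with constant `C`. -/
def CenteredHom (d : ℕ) (C : ℝ) : Prop :=
  ∀ (f : EuclideanSpace ℝ (Fin d) → ℝ) (g : EuclideanSpace ℝ (Fin d) → EuclideanSpace ℝ (Fin d)),
    Integrable g → WeakGrad f g →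
    (∀ᵐ x, maximalFn f x ≠ ⊤) ∧
      ∃ G : EuclideanSpace ℝ (Fin d) → EuclideanSpace ℝ (Fin d), Integrable G ∧
        WeakGrad (fun x => (maximalFn f x).toReal) G ∧ ∫ x, ‖G x‖ ≤ C * ∫ x, ‖g x‖

/-- For all locally integrable `f` on `ℝ^d` with an integrable weak gradient `g` (`f` itself need
not be integrable) the uncentered maximal function is finite almost everywhere and in
`W^{1,1}_loc`, with the endpoint gradient bound with constant `C`. -/
def UncenteredHom (d : ℕ) (C : ℝ) : Prop :=
  ∀ (f : EuclideanSpace ℝ (Fin d) → ℝ) (g : EuclideanSpace ℝ (Fin d) → EuclideanSpace ℝ (Fin d)),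
    Integrable g → WeakGrad f g →
    (∀ᵐ x, uncenteredFn f x ≠ ⊤) ∧
      ∃ G : EuclideanSpace ℝ (Fin d) → EuclideanSpace ℝ (Fin d), Integrable G ∧
        WeakGrad (fun x => (uncenteredFn f x).toReal) G ∧ ∫ x, ‖G x‖ ≤ C * ∫ x, ‖g x‖

end Vale.Agent.P137
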