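import Vale.Agent.P137.H838.Hom

open MeasureTheory Set Filter Topology
open scoped ENNReal NNReal ContDiff

namespace Vale.Agent.P137.BV

open Vale.Agent.P137 Vale.Agent.P137.U

variable {d : ℕ}

theorem small_scale {g : E d → E d} (hg : Integrable g) {G : Set (E d)} (hG : IsCompact G)
    (hG0 : volume G = 0) (C C' : ℝ≥0) {ε : ℝ≥0∞} (hε : 0 < ε) :
    ∃ j : ℕ, C * (volume.withDensity fun x => ‖g x‖ₑ)
      (Metric.thickening (((C' : ℝ) + 1) * 2⁻¹ ^ j) G) < ε := by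
  set ν : Measure (E d) := volume.withDensity fun x => ‖g x‖ₑ with hν
  have hνfin : IsFiniteMeasure ν := isFiniteMeasure_withDensity hg.2.ne
  have hνG : ν G = 0 := withDensity_absolutelyContinuous _ _ hG0
  have ht1 : Tendsto (fun r => ν (Metric.thickening r G)) (𝓝[>] 0) (𝓝 0) := by
    rw [← hνG]
    exact tendsto_measure_thickening_of_isClosed ⟨1, one_pos, measure_ne_top _ _⟩ hG.isClosed
  have hj : Tendsto (fun j : ℕ => ((C' : ℝ) + 1) * 2⁻¹ ^ j) atTop (𝓝[>] 0) := by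
    rw [tendsto_nhdsWithin_iff]
    constructor
    · have h1 : Tendsto (fun n : ℕ => (2⁻¹ : ℝ) ^ n) atTop (𝓝 0) :=
        tendsto_pow_atTop_nhds_zero_of_lt_one (by norm_num) (by norm_num)
      simpa only [inv_pow, mul_zero] using h1.const_mul ((C' : ℝ) + 1)
    · exact Eventually.of_forall fun n => by
        simp only [mem_Ioi]
        positivity
  have hC1 : Tendsto (fun j : ℕ => (C : ℝ≥0∞) * ν (Metric.thickening (((C' : ℝ) + 1) * 2⁻¹ ^ j) G))
      atTop (𝓝 0) := by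
    have h2 := ENNReal.Tendsto.const_mul (ht1.comp hj) (Or.inr (ENNReal.coe_ne_top (r := C)))
    rw [mul_zero] at h2
    exact h2
  exact (hC1.eventually_lt_const hε).exists

theorem small_nbhd {G : Set (E d)} (hG : IsCompact G) (hG0 : volume G = 0) {B : ℝ≥0∞}
    (hB : B ≠ ⊤) {ε : ℝ≥0∞} (hε : 0 < ε) {s : ℝ} (hs : 0 < s) :
    ∃ η : ℝ, 0 < η ∧ η < s ∧ B * volume (Metric.thickening η G) < ε := by
  have ht2 : Tendsto (fun r => volume (Metric.thickening r G)) (𝓝[>] 0) (𝓝 0) := by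
    rw [← hG0]
    have hGb : Bornology.IsBounded (Metric.thickening 1 G) := hG.isBounded.thickening
    have hGfin : volume (Metric.thickening 1 G) < ⊤ :=
      Bornology.IsBounded.measure_lt_top (μ := volume) hGb
    exact tendsto_measure_thickening_of_isClosed ⟨1, one_pos, hGfin.ne⟩ hG.isClosed
  have ht3 : Tendsto (fun r => B * volume (Metric.thickening r G)) (𝓝[>] 0) (𝓝 0) := by
    have h2 := ENNReal.Tendsto.const_mul ht2 (Or.inr hB)
    rw [mul_zero] at h2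
    exact h2
  have hsmall : ∀ᶠ r : ℝ in 𝓝[>] 0, r < s :=
    (eventually_lt_nhds hs).filter_mono nhdsWithin_le_nhds
  obtain ⟨η, hη1, hη2, hη0⟩ :=
    ((ht3.eventually_lt_const hε).and (hsmall.and eventually_mem_nhdsWithin)).exists
  exact ⟨η, hη0, hη2, hη1⟩

theorem ev_pow_small (C : ℝ≥0) {ε : ℝ≥0∞} (hε : 0 < ε) :
    ∀ᶠ n : ℕ in atTop, (C : ℝ≥0∞) * ENNReal.ofReal (2⁻¹ ^ n) < ε := by
  have ht4 : Tendsto (fun n : ℕ => (C : ℝ≥0∞) * ENNReal.ofReal (2⁻¹ ^ n)) atTop (𝓝 0) := by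
    have h1 : Tendsto (fun n : ℕ => (2⁻¹ : ℝ) ^ n) atTop (𝓝 0) :=
      tendsto_pow_atTop_nhds_zero_of_lt_one (by norm_num) (by norm_num)
    have h2 := ENNReal.Tendsto.const_mul (ENNReal.tendsto_ofReal h1)
      (Or.inr (ENNReal.coe_ne_top (r := C)))
    rw [ENNReal.ofReal_zero, mul_zero] at h2
    exact h2
  exact ht4.eventually_lt_const hε

/-- No concentration of the gradients on null sets. -/
theorem Apx.hac {f : E d → ℝ} {g : E d → E d} {ρ : ℕ → ContDiffBump (0 : E d)}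
    (A : Apx f g ρ) (O : Op2 d) (G : Set (E d)) (hG : IsCompact G) (hG0 : volume G = 0)
    (ε : ℝ≥0∞) (hε : 0 < ε) :
    ∃ S : Set (E d), IsOpen S ∧ G ⊆ S ∧
      ∀ᶠ n in atTop, ∫⁻ x in S, ‖fderiv ℝ (uN O f ρ n) x‖ₑ ≤ ε := by
  have hg := A.int
  have hε3 : 0 < ε / 3 := ENNReal.div_pos hε.ne' (by norm_num)
  obtain ⟨j, hj1⟩ := small_scale hg hG hG0 O.C O.C' hε3
  set ν : Measure (E d) := volume.withDensity fun x => ‖g x‖ₑ with hν
  set B : ℝ≥0∞ := (∫⁻ x, ‖g x‖ₑ) / volume (Metric.ball (0 : E d) (2⁻¹ ^ j)) with hB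
  have hBtop : B ≠ ⊤ :=
    ENNReal.div_ne_top hg.2.ne (Metric.measure_ball_pos volume 0 (fa_pow_pos j)).ne'
  obtain ⟨η, hη0, hη2, hη1⟩ := small_nbhd hG hG0 hBtop hε3 (fa_pow_pos (j + 1))
  have hη3 : η < 1 := hη2.trans_le (pow_le_one₀ (by norm_num) (by norm_num))
  obtain ⟨R, hR⟩ := hG.isBounded.subset_ball (0 : E d)
  have hthick : ∀ s : ℝ, Metric.thickening s G ⊆ Metric.ball (0 : E d) (R + s) := by
    intro s x hx
    rw [Metric.mem_thickening_iff] at hx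
    obtain ⟨z, hz, hxz⟩ := hx
    have h1 := hR hz
    rw [mem_ball_zero_iff] at h1 ⊢
    have h3 : ‖x‖ ≤ dist x z + ‖z‖ := by
      have := norm_le_norm_sub_add x z
      rwa [← dist_eq_norm] at this
    linarith
  refine ⟨Metric.thickening η G, Metric.isOpen_thickening, Metric.self_subset_thickening hη0 G, ?_⟩
  have h4pow : ∀ᶠ n : ℕ in atTop, R + (((O.C' : ℝ) + 1) * 2⁻¹ ^ j) ≤ (4 : ℝ) ^ n :=
    (tendsto_pow_atTop_atTop_of_one_lt (by norm_num : (1 : ℝ) < 4)).eventually_ge_atTop _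
  filter_upwards [ev_pow_small O.C hε3, A.local_bound O (R + η) j, h4pow] with n hn1 hn2 hn3
  refine (hn2 _ Metric.isOpen_thickening.measurableSet (hthick η)).trans ?_
  have hsub : Metric.thickening (O.C' * 2⁻¹ ^ (j + 1)) (Metric.thickening η G) ⊆
      Metric.thickening (((O.C' : ℝ) + 1) * 2⁻¹ ^ j) G := by
    refine (Metric.thickening_thickening_subset _ _ _).trans (Metric.thickening_mono ?_ _)
    have hC'0 : (0 : ℝ) ≤ O.C' := NNReal.coe_nonneg _
    have hp := fa_pow_pos j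
    rw [pow_succ] at hη2 ⊢
    linarith only [hη2, hp, mul_nonneg hC'0 hp.le]
  have h5 : ∫⁻ x in Metric.thickening (O.C' * 2⁻¹ ^ (j + 1)) (Metric.thickening η G),
      ‖fderiv ℝ (ph f ρ n) x‖ₑ ≤ ν (Metric.thickening (((O.C' : ℝ) + 1) * 2⁻¹ ^ j) G) +
        ENNReal.ofReal (2⁻¹ ^ n) := by
    refine (A.set_grad n Metric.isOpen_thickening.measurableSet
      (hsub.trans ((hthick _).trans (Metric.ball_subset_ball hn3)))).trans ?_
    refine add_le_add ?_ le_rfl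
    rw [hν, withDensity_apply _ Metric.isOpen_thickening.measurableSet]
    exact lintegral_mono_set hsub
  calc _ ≤ O.C * (ν (Metric.thickening (((O.C' : ℝ) + 1) * 2⁻¹ ^ j) G) +
        ENNReal.ofReal (2⁻¹ ^ n)) + B * volume (Metric.thickening η G) :=
        add_le_add (mul_le_mul' le_rfl h5) le_rfl
    _ ≤ ε / 3 + ε / 3 + ε / 3 := by
        rw [mul_add]
        exact add_le_add (add_le_add hj1.le hn1.le) hη1.le
    _ = ε := ENNReal.add_thirds ε

/-- The main theorem for one operator, for functions with an integrable weak gradient. -/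
theorem Op2.main (O : Op2 d) (hd : 0 < d) {f : E d → ℝ} {g : E d → E d} (hg : Integrable g)
    (hw : IsWeakGradient f g) :
    (∀ᵐ x, O.N f x ≠ ⊤) ∧ ∃ h : E d → E d, Integrable h ∧
      IsWeakGradient (fun x => (O.N f x).toReal) h ∧
      ∫ x, ‖h x‖ ≤ 2 * d * O.C * ∫ x, ‖g x‖ := by
  obtain ⟨ρ, A⟩ := exists_apx hg hw
  obtain ⟨hfin, hloc, -⟩ := O.toOp.main hd hw.1 (integral_nonneg fun x => norm_nonneg (g x))
    (fun Φ hΦ => test_le_of_weak hw hg hΦ)
  refine ⟨hfin, ?_⟩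
  have hg1 : (0 : ℝ) ≤ ∫ x, ‖g x‖ := integral_nonneg fun _ => norm_nonneg _
  set G1 : ℝ≥0 := ⟨∫ x, ‖g x‖, hg1⟩ with hG1
  have hG1' : ∫⁻ x, ‖g x‖ₑ = (G1 : ℝ≥0∞) := by
    rw [← ofReal_integral_norm_eq_lintegral_enorm hg, hG1, ENNReal.ofReal]
    congr 1
    exact Real.toNNReal_of_nonneg hg1
  obtain ⟨h, h1, h2, h3⟩ := weak_limit_loc (fun x => (O.N f x).toReal) (uN O f ρ)
    (fun n => A.lip O n) hloc
    (fun R => O.L1 A.hc_int A.hc_le A.rout A.smooth A.compact hfin hloc (A.lim O) R)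
    (O.C * G1) (fun R => by
      rw [ENNReal.coe_mul, ← hG1']
      exact A.grad_bound O R) (fun G hG hG0 ε hε => A.hac O G hG hG0 ε hε)
  refine ⟨h, h2, h1, h3.trans (le_of_eq ?_)⟩
  rw [NNReal.coe_mul]
  have h4 : (G1 : ℝ) = ∫ x, ‖g x‖ := rfl
  rw [h4]
  ring

end Vale.Agent.P137.BV
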