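import Vale.Agent.P137.H838.Tend

open MeasureTheory Set Filter Topology
open scoped ENNReal NNReal ContDiff CompactlySupported

namespace Vale.Agent.P137.BV

open Vale.Agent.P137 Vale.Agent.P137.U

variable {d : ℕ}

/-- Local form of `weak_limit`: the gradient bounds hold eventually on every ball. -/
theorem weak_limit_loc (u : E d → ℝ) (un : ℕ → E d → ℝ)
    (hlip : ∀ n, ∃ L : ℝ≥0, LipschitzWith L (un n)) (hu : LocallyIntegrable u)
    (hlim : ∀ R : ℝ, Tendsto (fun n => ∫⁻ x in Metric.ball 0 R, ‖un n x - u x‖ₑ) atTop (𝓝 0))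
    (M : ℝ≥0) (hM : ∀ R : ℝ, ∀ᶠ n in atTop,
      ∫⁻ x in Metric.ball (0 : E d) R, ‖fderiv ℝ (un n) x‖ₑ ≤ M)
    (hac : ∀ G : Set (E d), IsCompact G → volume G = 0 → ∀ ε : ℝ≥0∞, 0 < ε →
      ∃ O : Set (E d), IsOpen O ∧ G ⊆ O ∧
        ∀ᶠ n in atTop, ∫⁻ x in O, ‖fderiv ℝ (un n) x‖ₑ ≤ ε) :
    ∃ h : E d → E d, IsWeakGradient u h ∧ Integrable h ∧ ∫ x, ‖h x‖ ≤ 2 * d * M := by
  have hs : ∀ n : ℕ, ∃ m : ℕ, n ≤ m ∧
      ∫⁻ x in Metric.ball (0 : E d) n, ‖fderiv ℝ (un m) x‖ₑ ≤ M := fun n =>
    ((eventually_ge_atTop n).and (hM n)).exists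
  choose s hs1 hs2 using hs
  have hst : Tendsto s atTop atTop := tendsto_atTop_mono hs1 tendsto_id
  -- the coordinate derivatives
  set D : Fin d → ℕ → E d → ℝ := fun i n => (Metric.ball (0 : E d) n).indicator
    (fun x => fderiv ℝ (un (s n)) x (EuclideanSpace.single i 1)) with hD
  have hDm : ∀ i n, Measurable (D i n) := fun i n =>
    (measurable_fderiv_apply_const ℝ _ _).indicator measurableSet_ball
  have hDle : ∀ i n x, ‖D i n x‖ₑ ≤ (Metric.ball (0 : E d) n).indicator
      (fun x => ‖fderiv ℝ (un (s n)) x‖ₑ) x := fun i n x => by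
    simp only [hD]
    by_cases hx : x ∈ Metric.ball (0 : E d) n
    · rw [indicator_of_mem hx, indicator_of_mem hx, enorm_le_iff_norm_le]
      refine ((fderiv ℝ (un (s n)) x).le_opNorm _).trans ?_
      simp only [PiLp.norm_single, norm_one, mul_one, Std.le_refl]
    · rw [indicator_of_notMem hx, indicator_of_notMem hx, enorm_zero]
  have hindle : ∀ (n : ℕ) (x : E d), (Metric.ball (0 : E d) n).indicator
      (fun x => ‖fderiv ℝ (un (s n)) x‖ₑ) x ≤ ‖fderiv ℝ (un (s n)) x‖ₑ := fun n x =>
    indicator_le_self _ _ x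
  have hindM : ∀ n : ℕ, ∫⁻ x, (Metric.ball (0 : E d) n).indicator
      (fun x => ‖fderiv ℝ (un (s n)) x‖ₑ) x ≤ M := fun n => by
    rw [lintegral_indicator measurableSet_ball]
    exact hs2 n
  have hplus : ∀ i n x, ENNReal.ofReal (max (D i n x) 0) ≤ (Metric.ball (0 : E d) n).indicator
      (fun x => ‖fderiv ℝ (un (s n)) x‖ₑ) x := by
    intro i n x
    refine le_trans ?_ (hDle i n x)
    rw [Real.enorm_eq_ofReal_abs]
    exact ENNReal.ofReal_le_ofReal (max_le (le_abs_self _) (abs_nonneg _))
  have hminus : ∀ i n x, ENNReal.ofReal (max (-D i n x) 0) ≤ (Metric.ball (0 : E d) n).indicator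
      (fun x => ‖fderiv ℝ (un (s n)) x‖ₑ) x := by
    intro i n x
    refine le_trans ?_ (hDle i n x)
    rw [Real.enorm_eq_ofReal_abs]
    exact ENNReal.ofReal_le_ofReal (max_le (neg_le_abs _) (abs_nonneg _))
  have key : ∀ w : ℕ → E d → ℝ, (∀ n, Measurable (w n)) → (∀ n x, 0 ≤ w n x) →
      (∀ n x, ENNReal.ofReal (w n x) ≤ (Metric.ball (0 : E d) n).indicator
        (fun x => ‖fderiv ℝ (un (s n)) x‖ₑ) x) →
      ∃ p : E d → ℝ, (∀ x, 0 ≤ p x) ∧ Integrable p ∧ ∫ x, p x ≤ M ∧
      ∀ φ : E d → ℝ, Continuous φ → HasCompactSupport φ →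
        Tendsto (fun n => ∫ x, w n x * φ x) (hyperfilter ℕ) (𝓝 (∫ x, p x * φ x)) := by
    intro w hw hw0 hle
    refine pos_weak_limit w hw hw0 M (fun n => (lintegral_mono (hle n)).trans (hindM n)) ?_
    intro G hG hG0 ε hε
    obtain ⟨O, hO, hGO, hev⟩ := hac G hG hG0 ε hε
    exact ⟨O, hO, hGO, (hst.eventually hev).mono fun n hn =>
      (lintegral_mono fun x => (hle n x).trans (hindle n x)).trans hn⟩
  have hp := fun i => key (fun n x => max (D i n x) 0) (fun n => (hDm i n).max measurable_const)
    (fun n x => le_max_right _ _) (hplus i)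
  have hq := fun i => key (fun n x => max (-D i n x) 0)
    (fun n => (hDm i n).neg.max measurable_const) (fun n x => le_max_right _ _) (hminus i)
  choose p hp0 hpi hpM hpl using hp
  choose q hq0 hqi hqM hql using hq
  have hhi : Integrable (fun x => ∑ i, (p i x - q i x) • (EuclideanSpace.single i (1 : ℝ) : E d)) :=
    integrable_finsetSum _ fun i _ => ((hpi i).sub (hqi i)).smul_const _
  refine ⟨fun x => ∑ i, (p i x - q i x) • (EuclideanSpace.single i (1 : ℝ) : E d),
    ⟨hu, hhi.locallyIntegrable, fun φ hφ hφc i => ?_⟩, hhi, ?_⟩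
  · have hcoord : ∀ x, (∑ j, (p j x - q j x) • (EuclideanSpace.single j (1 : ℝ) : E d)) i
        = p i x - q i x := fun x => by
      simp only [WithLp.ofLp_sum, WithLp.ofLp_smul, PiLp.ofLp_single, Finset.sum_apply, Pi.smul_apply, Pi.single_apply, smul_eq_mul, mul_ite, mul_one, mul_zero, Finset.sum_ite_eq, Finset.mem_univ, ↓reduceIte]
    simp only [hcoord]
    -- the test function
    set ψ : E d → ℝ := fun x => fderiv ℝ φ x (EuclideanSpace.single i 1) with hψ
    have hψc : Continuous ψ := (hφ.continuous_fderiv (by simp)).clm_apply continuous_const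
    have hψs : HasCompactSupport ψ := (hφc.fderiv_apply (𝕜 := ℝ) _)
    obtain ⟨C, hC⟩ := hψs.exists_bound_of_continuous hψc
    obtain ⟨R, hR⟩ := hψs.isCompact.isBounded.subset_ball 0
    have hC0 : 0 ≤ C := (norm_nonneg _).trans (hC 0)
    have hint1 : ∀ n, Integrable (fun x => un n x * ψ x) := fun n => by
      obtain ⟨L, hL⟩ := hlip n
      exact (hL.continuous.mul hψc).integrable_of_hasCompactSupport hψs.mul_left
    have hint0 : Integrable (fun x => u x * ψ x) := by
      have := hu.integrable_smul_left_of_hasCompactSupport hψc hψs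
      simpa only [smul_eq_mul, mul_comm] using this
    have hT : Tendsto (fun n => ∫ x, un n x * ψ x) atTop (𝓝 (∫ x, u x * ψ x)) := by
      refine tendsto_integral_of_L1 _ hint0.aestronglyMeasurable (Eventually.of_forall hint1) ?_
      have h0 : Tendsto (fun n => ENNReal.ofReal C *
          ∫⁻ x in Metric.ball 0 R, ‖un n x - u x‖ₑ) atTop (𝓝 0) := by
        have := ENNReal.Tendsto.const_mul (a := ENNReal.ofReal C) (hlim R)
          (Or.inr ENNReal.ofReal_ne_top)
        simpa only [mul_zero] using this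
      refine tendsto_of_tendsto_of_tendsto_of_le_of_le tendsto_const_nhds h0
        (fun _ => bot_le) fun n => ?_
      have hle : ∀ x, ‖un n x * ψ x - u x * ψ x‖ₑ ≤ (Metric.ball (0 : E d) R).indicator
          (fun x => ENNReal.ofReal C * ‖un n x - u x‖ₑ) x := by
        intro x
        by_cases hx : x ∈ Metric.ball (0 : E d) R
        · rw [indicator_of_mem hx, ← sub_mul, enorm_mul, mul_comm]
          gcongr
          rw [← ofReal_norm]
          exact ENNReal.ofReal_le_ofReal (hC x)
        · have : ψ x = 0 := image_eq_zero_of_notMem_tsupport fun h => hx (hR h)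
          simp only [this, mul_zero, sub_self, enorm_zero, zero_le]
      calc ∫⁻ x, ‖un n x * ψ x - u x * ψ x‖ₑ
          ≤ ∫⁻ x, (Metric.ball (0 : E d) R).indicator
            (fun x => ENNReal.ofReal C * ‖un n x - u x‖ₑ) x := lintegral_mono hle
        _ = ∫⁻ x in Metric.ball (0 : E d) R, ENNReal.ofReal C * ‖un n x - u x‖ₑ :=
            lintegral_indicator measurableSet_ball _
        _ = ENNReal.ofReal C * ∫⁻ x in Metric.ball (0 : E d) R, ‖un n x - u x‖ₑ :=
            lintegral_const_mul' _ _ ENNReal.ofReal_ne_top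
    obtain ⟨Lφ, hLφ⟩ : ∃ L, LipschitzWith L φ :=
      ContDiff.lipschitzWith_of_hasCompactSupport hφc hφ (by simp)
    have hDint : ∀ n, Integrable (D i n) := fun n =>
      ⟨(hDm i n).aestronglyMeasurable, lt_of_le_of_lt ((lintegral_mono (hDle i n)).trans (hindM n))
        ENNReal.coe_lt_top⟩
    obtain ⟨C', hC'⟩ := hφc.exists_bound_of_continuous hφ.continuous
    have hbd : ∀ w : E d → ℝ, Integrable w → Integrable (fun x => w x * φ x) := fun w hw =>
      hw.mul_bdd (c := C') hφ.continuous.aestronglyMeasurable (ae_of_all _ hC')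
    obtain ⟨R', hR'⟩ := hφc.isCompact.isBounded.subset_ball (0 : E d)
    have hparts : ∀ᶠ n : ℕ in atTop, ∫ x, un (s n) x * ψ x
        = -(∫ x, max (D i n x) 0 * φ x) + ∫ x, max (-D i n x) 0 * φ x := by
      filter_upwards [eventually_ge_atTop (⌈R'⌉₊)] with n hn
      have hRn : R' ≤ n := (Nat.le_ceil R').trans (by exact_mod_cast hn)
      obtain ⟨L, hL⟩ := hlip (s n)
      have h1 := hL.integral_lineDeriv_mul_eq (μ := volume) hLφ hφc (EuclideanSpace.single i 1)
      have h2 : ∫ x, lineDeriv ℝ (un (s n)) x (EuclideanSpace.single i 1) * φ x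
          = ∫ x, D i n x * φ x := by
        refine integral_congr_ae ?_
        filter_upwards [hL.ae_differentiableAt (μ := volume)] with x hx
        rw [hx.lineDeriv_eq_fderiv]
        by_cases hxn : x ∈ Metric.ball (0 : E d) n
        · simp only [hD]
          rw [indicator_of_mem hxn]
        · have : φ x = 0 := image_eq_zero_of_notMem_tsupport fun h =>
            hxn (Metric.ball_subset_ball hRn (hR' h))
          rw [this, mul_zero, mul_zero]
      have h3 : ∫ x, lineDeriv ℝ φ x (-EuclideanSpace.single i 1) * un (s n) x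
          = -∫ x, un (s n) x * ψ x := by
        rw [← integral_neg]
        refine integral_congr_ae (ae_of_all _ fun x => ?_)
        simp only
        rw [((hφ.differentiable (by simp)) x).lineDeriv_eq_fderiv, map_neg]
        ring
      rw [h2, h3] at h1
      have h4 : ∫ x, D i n x * φ x
          = (∫ x, max (D i n x) 0 * φ x) - ∫ x, max (-D i n x) 0 * φ x := by
        rw [← integral_sub (hbd _ (hDint n).pos_part) (hbd _ (hDint n).neg_part)]
        refine integral_congr_ae (ae_of_all _ fun x => ?_)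
        simp only
        rw [← sub_mul]
        congr 1
        rcases le_total 0 (D i n x) with h | h
        · rw [max_eq_left h, max_eq_right (by linarith only [h])]; ring
        · rw [max_eq_right h, max_eq_left (by linarith only [h])]; ring
      linarith only [h1, h4]
    have hT2 := ((hpl i φ hφ.continuous hφc).neg).add (hql i φ hφ.continuous hφc)
    have hT3 := tendsto_nhds_unique ((hT.comp hst).mono_left Nat.hyperfilter_le_atTop)
      (hT2.congr' ((hparts.filter_mono Nat.hyperfilter_le_atTop).mono fun n hn => hn.symm))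
    rw [hT3]
    simp only [sub_mul]
    rw [integral_sub (hbd _ (hpi i)) (hbd _ (hqi i))]
    ring
  · calc ∫ x, ‖∑ i, (p i x - q i x) • (EuclideanSpace.single i (1 : ℝ) : E d)‖
        ≤ ∫ x, ∑ i, (p i x + q i x) := by
          refine integral_mono hhi.norm
            (integrable_finsetSum _ fun i _ => (hpi i).add (hqi i)) fun x => ?_
          refine (norm_sum_le _ _).trans (Finset.sum_le_sum fun i _ => ?_)
          have h1 : ‖(EuclideanSpace.single i (1 : ℝ) : E d)‖ = 1 := by simp
          rw [norm_smul, h1, mul_one, Real.norm_eq_abs, abs_le]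
          constructor <;> linarith only [hp0 i x, hq0 i x]
      _ = ∑ i, ((∫ x, p i x) + ∫ x, q i x) := by
          rw [integral_finsetSum (s := Finset.univ) (f := fun i x => p i x + q i x)
            fun i _ => (hpi i).add (hqi i)]
          exact Finset.sum_congr rfl fun i _ => integral_add (hpi i) (hqi i)
      _ ≤ ∑ _i : Fin d, ((M : ℝ) + M) := Finset.sum_le_sum fun i _ => add_le_add (hpM i) (hqM i)
      _ = 2 * d * M := by simp only [Finset.sum_const, Finset.card_univ, Fintype.card_fin, smul_add, nsmul_eq_mul]; ring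

end Vale.Agent.P137.BV
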