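import Vale.Agent.P137.H838.Conv
import Vale.Agent.P137.H838.WeakLim

open MeasureTheory Set Filter Topology
open scoped ENNReal NNReal ContDiff

namespace Vale.Agent.P137.BV

open Vale.Agent.P137 Vale.Agent.P137.U

variable {d : ℕ}

theorem grad_cut_zero {k : ℕ} {z : E d} (hz : ‖z‖ < k + 1) : gradient (cut k) z = 0 := by
  have h1 : (cut k : E d → ℝ) =ᶠ[𝓝 z] fun _ => 1 := by
    filter_upwards [continuous_norm.continuousAt.eventually (eventually_lt_nhds hz)] with y hy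
    exact cut_eq_one hy.le
  rw [gradient, h1.fderiv_eq, fderiv_fun_const]
  simp

theorem grad_approx {f : E d → ℝ} {g : E d → E d} (hw : IsWeakGradient f g)
    (ρ : ContDiffBump (0 : E d)) (hρ : ρ.rOut ≤ 1) (k : ℕ) {x : E d} (hx : ‖x‖ < k) :
    gradient (mol ρ (fun x => cut k x * f x)) x = mol ρ g x := by
  rw [mol_grad (weak_mul hw (cut_contDiff k)) ρ x]
  refine mol_eq_of_near ρ hρ fun z hz => ?_
  rw [cut_eq_one (by linarith), one_smul, grad_cut_zero (by linarith), smul_zero, add_zero]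

/-- The variation is bounded by the norm of the weak gradient. -/
theorem test_le_of_weak {f : E d → ℝ} {g : E d → E d} (hw : IsWeakGradient f g)
    (hg : Integrable g) {Φ : E d → E d} (hΦ : TF Φ) :
    ∫ x, f x * divg Φ x ≤ ∫ x, ‖g x‖ := by
  obtain ⟨hf, hgl, hw⟩ := hw
  have hs : ∀ i : Fin d, ContDiff ℝ ∞ (fun x => Φ x i) := fun i =>
    (EuclideanSpace.proj i : E d →L[ℝ] ℝ).contDiff.comp hΦ.smooth
  have hcs : ∀ i : Fin d, HasCompactSupport (fun x => Φ x i) := fun i =>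
    hΦ.compact.comp_left (g := fun v : E d => v i) (by simp)
  have hd : ∀ (i : Fin d) (x v : E d), fderiv ℝ (fun x => Φ x i) x v = fderiv ℝ Φ x v i := by
    intro i x v
    have h1 := ((EuclideanSpace.proj i : E d →L[ℝ] ℝ).hasFDerivAt (x := Φ x)).comp x
      ((hΦ.smooth.differentiable (by simp)) x).hasFDerivAt
    have h2 : fderiv ℝ (fun x => Φ x i) x = (EuclideanSpace.proj i : E d →L[ℝ] ℝ).comp
      (fderiv ℝ Φ x) := h1.fderiv
    rw [h2]; rfl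
  have i2 : ∀ i : Fin d, Integrable
      (fun x => f x * fderiv ℝ (fun x => Φ x i) x (EuclideanSpace.single i 1)) := fun i => by
    have h1 := hf.integrable_smul_left_of_hasCompactSupport
      (((hs i).continuous_fderiv (by simp)).clm_apply continuous_const)
      ((hcs i).fderiv_apply ℝ (EuclideanSpace.single i 1))
    refine h1.congr (ae_of_all _ fun x => ?_)
    simp only [smul_eq_mul]
    ring
  have i1 : ∀ i : Fin d, Integrable (fun x => g x i * Φ x i) := fun i => by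
    have h3 : Integrable (fun x => Φ x i • g x) :=
      hgl.integrable_smul_left_of_hasCompactSupport (hs i).continuous (hcs i)
    have h4 := (EuclideanSpace.proj (𝕜 := ℝ) i).integrable_comp h3
    refine h4.congr (Filter.Eventually.of_forall (fun x => ?_))
    simp only [map_smul, PiLp.proj_apply, smul_eq_mul]
    ring
  have e1 : ∀ x, f x * divg Φ x =
      ∑ i, f x * fderiv ℝ (fun x => Φ x i) x (EuclideanSpace.single i 1) := by
    intro x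
    unfold divg
    rw [Finset.mul_sum]
    exact Finset.sum_congr rfl fun i _ => by rw [hd]
  have e3 : ∫ x, f x * divg Φ x = - ∫ x, ∑ i, g x i * Φ x i := by
    simp only [e1]
    rw [integral_finsetSum _ (fun i _ => i2 i), integral_finsetSum _ (fun i _ => i1 i),
      ← Finset.sum_neg_distrib]
    exact Finset.sum_congr rfl fun i _ => hw _ (hs i) (hcs i) i
  rw [e3, ← integral_neg]
  refine integral_mono (integrable_finsetSum _ fun i _ => i1 i).neg hg.norm fun x => ?_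
  simp only
  have h5 : ∑ i, g x i * Φ x i = inner ℝ (Φ x) (g x) := by
    rw [PiLp.inner_apply]
    exact Finset.sum_congr rfl fun i _ => by simp
  rw [h5]
  have h6 := abs_real_inner_le_norm (Φ x) (g x)
  have h7 := hΦ.le_one x
  have h8 := norm_nonneg (g x)
  have h9 := neg_abs_le (inner ℝ (Φ x) (g x))
  nlinarith

/-- the cut off function -/
noncomputable def hc (f : E d → ℝ) (n : ℕ) : E d → ℝ := fun x => cut (4 ^ n + 2) x * f x

/-- the smooth approximation -/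
noncomputable def ph (f : E d → ℝ) (ρ : ℕ → ContDiffBump (0 : E d)) (n : ℕ) : E d → ℝ :=
  mol (ρ n) (hc f n)

/-- Mollifiers adapted to `f` and `g`. -/
structure Apx (f : E d → ℝ) (g : E d → E d) (ρ : ℕ → ContDiffBump (0 : E d)) : Prop where
  loc : LocallyIntegrable f
  int : Integrable g
  weak : IsWeakGradient f g
  rout : ∀ n, (ρ n).rOut ≤ 2⁻¹ ^ n
  close : ∀ n, ∫ x, ‖hc f n x - ph f ρ n x‖ ≤ 2⁻¹ ^ (n * (d + 1))
  closeg : ∀ n, ∫ x, ‖g x - mol (ρ n) g x‖ ≤ 2⁻¹ ^ n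

theorem exists_apx {f : E d → ℝ} {g : E d → E d} (hg : Integrable g)
    (hw : IsWeakGradient f g) : ∃ ρ, Apx f g ρ := by
  have hex : ∀ n : ℕ, ∃ ρ : ContDiffBump (0 : E d), ρ.rOut ≤ 2⁻¹ ^ n ∧
      ∫ x, ‖hc f n x - mol ρ (hc f n) x‖ ≤ 2⁻¹ ^ (n * (d + 1)) ∧
      ∫ x, ‖g x - mol ρ g x‖ ≤ 2⁻¹ ^ n := by
    intro n
    obtain ⟨δ₁, hδ₁, h1⟩ := mol_l1_tendsto (cut_mul_integrable hw.1 (4 ^ n + 2))
      (ε := 2⁻¹ ^ (n * (d + 1))) (by positivity)
    obtain ⟨δ₂, hδ₂, h2⟩ := mol_l1_tendsto hg (ε := 2⁻¹ ^ n) (by positivity)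
    have hm : 0 < min (min δ₁ δ₂) (2⁻¹ ^ n) := lt_min (lt_min hδ₁ hδ₂) (by positivity)
    refine ⟨⟨min (min δ₁ δ₂) (2⁻¹ ^ n) / 2, min (min δ₁ δ₂) (2⁻¹ ^ n), by positivity,
      by linarith⟩, min_le_right _ _, h1 _ ?_, h2 _ ?_⟩
    · exact (min_le_left _ _).trans (min_le_left _ _)
    · exact (min_le_left _ _).trans (min_le_right _ _)
  choose ρ h1 h2 h3 using hex
  exact ⟨ρ, hw.1, hg, hw, h1, h2, h3⟩

namespace Apx

variable {f : E d → ℝ} {g : E d → E d} {ρ : ℕ → ContDiffBump (0 : E d)}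

theorem rout1 (A : Apx f g ρ) (n : ℕ) : (ρ n).rOut ≤ 1 :=
  (A.rout n).trans (pow_le_one₀ (by norm_num) (by norm_num))

theorem hc_int (A : Apx f g ρ) (n : ℕ) : Integrable (hc f n) := cut_mul_integrable A.loc _

theorem hc_le (_A : Apx f g ρ) (n : ℕ) (x : E d) : |hc f n x| ≤ |f x| := by
  unfold hc
  rw [abs_mul, abs_of_nonneg (cut_nonneg _ _)]
  exact mul_le_of_le_one_left (abs_nonneg _) (cut_le_one _ _)

theorem hc_eq (_A : Apx f g ρ) (n : ℕ) (x : E d) (hx : x ∈ Metric.ball (0 : E d) (4 ^ n)) :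
    hc f n x = f x := by
  rw [mem_ball_zero_iff] at hx
  unfold hc
  rw [cut_eq_one (by push_cast; linarith), one_mul]

theorem smooth (A : Apx f g ρ) (n : ℕ) : ContDiff ℝ ∞ (ph f ρ n) :=
  (ρ n).hasCompactSupport_normed.contDiff_convolution_left _ (ρ n).contDiff_normed
    (A.hc_int n).locallyIntegrable

theorem compact (_A : Apx f g ρ) (n : ℕ) : HasCompactSupport (ph f ρ n) :=
  (ρ n).hasCompactSupport_normed.convolution _ ((cut_compact _).mul_right)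

theorem ph_int (A : Apx f g ρ) (n : ℕ) : Integrable (ph f ρ n) :=
  (A.smooth n).continuous.integrable_of_hasCompactSupport (A.compact n)

theorem F1 (A : Apx f g ρ) (n : ℕ) : ContDiff ℝ 1 (faS (2⁻¹ ^ n) (ph f ρ n)) :=
  faS_contDiff (fa_pow_pos n) (A.smooth n)

theorem F2 (A : Apx f g ρ) (n : ℕ) : HasCompactSupport (faS (2⁻¹ ^ n) (ph f ρ n)) :=
  faS_compact (fa_pow_pos n) (A.compact n)

theorem grad_eq (A : Apx f g ρ) (n : ℕ) {x : E d} (hx : x ∈ Metric.ball (0 : E d) (4 ^ n)) :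
    ‖fderiv ℝ (ph f ρ n) x‖ₑ = ‖mol (ρ n) g x‖ₑ := by
  rw [mem_ball_zero_iff] at hx
  rw [← fa_enorm_gradient]
  unfold ph hc
  rw [grad_approx A.weak (ρ n) (A.rout1 n) (4 ^ n + 2) (by push_cast; linarith)]

theorem tot_grad (A : Apx f g ρ) (n : ℕ) :
    ∫⁻ x in Metric.ball (0 : E d) (4 ^ n), ‖fderiv ℝ (ph f ρ n) x‖ₑ ≤ ∫⁻ x, ‖g x‖ₑ := by
  calc ∫⁻ x in Metric.ball (0 : E d) (4 ^ n), ‖fderiv ℝ (ph f ρ n) x‖ₑ
      = ∫⁻ x in Metric.ball (0 : E d) (4 ^ n), ‖mol (ρ n) g x‖ₑ :=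
        setLIntegral_congr_fun measurableSet_ball fun x hx => A.grad_eq n hx
    _ ≤ ∫⁻ x, ‖mol (ρ n) g x‖ₑ := setLIntegral_le_lintegral _ _
    _ = ENNReal.ofReal (∫ x, ‖mol (ρ n) g x‖) :=
        (ofReal_integral_norm_eq_lintegral_enorm (mol_integrable (ρ n) A.int)).symm
    _ ≤ ENNReal.ofReal (∫ x, ‖g x‖) := ENNReal.ofReal_le_ofReal (mol_l1 (ρ n) A.int)
    _ = ∫⁻ x, ‖g x‖ₑ := ofReal_integral_norm_eq_lintegral_enorm A.int

theorem set_grad (A : Apx f g ρ) (n : ℕ) {S : Set (E d)} (hS : MeasurableSet S)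
    (hSb : S ⊆ Metric.ball (0 : E d) (4 ^ n)) :
    ∫⁻ x in S, ‖fderiv ℝ (ph f ρ n) x‖ₑ ≤ (∫⁻ x in S, ‖g x‖ₑ) + ENNReal.ofReal (2⁻¹ ^ n) := by
  have hi := A.int.sub (mol_integrable (ρ n) A.int)
  calc ∫⁻ x in S, ‖fderiv ℝ (ph f ρ n) x‖ₑ
      = ∫⁻ x in S, ‖mol (ρ n) g x‖ₑ :=
        setLIntegral_congr_fun hS fun x hx => A.grad_eq n (hSb hx)
    _ ≤ ∫⁻ x in S, (‖g x‖ₑ + ‖g x - mol (ρ n) g x‖ₑ) := by
        refine lintegral_mono fun x => ?_
        have h1 : mol (ρ n) g x = g x - (g x - mol (ρ n) g x) := by abel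
        calc ‖mol (ρ n) g x‖ₑ = ‖g x - (g x - mol (ρ n) g x)‖ₑ := by rw [← h1]
          _ ≤ _ := enorm_sub_le
    _ = (∫⁻ x in S, ‖g x‖ₑ) + ∫⁻ x in S, ‖g x - mol (ρ n) g x‖ₑ :=
        lintegral_add_left' A.int.aestronglyMeasurable.restrict.enorm _
    _ ≤ _ := by
        gcongr
        refine (setLIntegral_le_lintegral _ _).trans ?_
        have h0 := ofReal_integral_norm_eq_lintegral_enorm hi
        simp only [Pi.sub_apply] at h0
        rw [← h0]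
        exact ENNReal.ofReal_le_ofReal (A.closeg n)

end Apx

/-- the approximating truncated maximal functions -/
noncomputable def uN (O : Op2 d) (f : E d → ℝ) (ρ : ℕ → ContDiffBump (0 : E d)) (n : ℕ) :
    E d → ℝ :=
  O.U (faS (2⁻¹ ^ n) (ph f ρ n)) (2⁻¹ ^ n) (2 ^ n)

namespace Apx

variable {f : E d → ℝ} {g : E d → E d} {ρ : ℕ → ContDiffBump (0 : E d)}

theorem lip (A : Apx f g ρ) (O : Op2 d) (n : ℕ) : ∃ L : ℝ≥0, LipschitzWith L (uN O f ρ n) :=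
  O.lip _ (A.F1 n) (A.F2 n) _ _ (fa_pow_pos n) (fa_pow_le n)

theorem lim (A : Apx f g ρ) (O : Op2 d) (x : E d) :
    Tendsto (fun n => ENNReal.ofReal (uN O f ρ n x)) atTop (𝓝 (O.N f x)) := by
  refine O.tend f (hc f) (fun n => faS (2⁻¹ ^ n) (ph f ρ n)) A.hc_int A.hc_le A.hc_eq
    (fun n => (A.F1 n).continuous) A.F2 (fun n x => faS_nonneg _ _) (fun n => ?_) x
  refine ⟨2⁻¹ ^ n, 2⁻¹ ^ (n * (d + 1)), by positivity, by positivity, le_rfl, le_rfl,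
    fun x => ‖hc f n x - ph f ρ n x‖, ((A.hc_int n).sub (A.ph_int n)).norm,
    fun x => norm_nonneg _, ?_, A.close n⟩
  intro x
  have h1 := faS_le (fa_pow_pos n) (ph f ρ n) x
  have h2 := faS_ge (ε := 2⁻¹ ^ n) (ph f ρ n) x
  have h3 : |abs (ph f ρ n x) - abs (hc f n x)| ≤ ‖hc f n x - ph f ρ n x‖ := by
    rw [Real.norm_eq_abs, abs_sub_comm (hc f n x)]
    exact abs_abs_sub_abs_le _ _
  have h4 := abs_le.1 h3
  have h5 := fa_pow_pos n
  rw [abs_le]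
  constructor <;> linarith only [h1, h5, h4.2, h2, h4.1]

theorem grad_bound (A : Apx f g ρ) (O : Op2 d) (R : ℝ) : ∀ᶠ n in atTop,
    ∫⁻ x in Metric.ball (0 : E d) R, ‖fderiv ℝ (uN O f ρ n) x‖ₑ ≤ O.C * ∫⁻ x, ‖g x‖ₑ := by
  filter_upwards [ev_scale R O.C'] with n hn
  obtain ⟨hn1, hn2⟩ := hn
  have h1 := O.core (faS (2⁻¹ ^ n) (ph f ρ n)) (A.F1 n) (A.F2 n) (2⁻¹ ^ n) (fa_pow_pos n)
    (2 * n - 1) (Metric.ball 0 R) measurableSet_ball
  have h2 : (2 : ℝ) * 2 ^ (2 * n - 1) * 2⁻¹ ^ n = 2 ^ n := by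
    rw [← pow_succ', show 2 * n - 1 + 1 = n + n by omega, pow_add, mul_assoc, ← mul_pow]
    norm_num
  rw [h2] at h1
  refine h1.trans (mul_le_mul' le_rfl ?_)
  refine le_trans ?_ (A.tot_grad n)
  refine le_trans (lintegral_mono_set (t := Metric.ball (0 : E d) (4 ^ n)) ?_) ?_
  · intro x hx
    rw [Metric.mem_thickening_iff] at hx
    obtain ⟨z, hz, hxz⟩ := hx
    rw [mem_ball_zero_iff] at hz ⊢
    have h3 : ‖x‖ ≤ dist x z + ‖z‖ := by
      have := norm_le_norm_sub_add x z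
      rwa [← dist_eq_norm] at this
    linarith
  · refine lintegral_mono fun x => ?_
    rw [enorm_le_iff_norm_le]
    exact faS_fderiv (fa_pow_pos n) (A.smooth n) x

theorem local_bound (A : Apx f g ρ) (O : Op2 d) (R0 : ℝ) (j : ℕ) : ∀ᶠ n in atTop,
    ∀ S : Set (E d), MeasurableSet S → S ⊆ Metric.ball (0 : E d) R0 →
    ∫⁻ x in S, ‖fderiv ℝ (uN O f ρ n) x‖ₑ ≤
      O.C * (∫⁻ x in Metric.thickening (O.C' * 2⁻¹ ^ (j + 1)) S, ‖fderiv ℝ (ph f ρ n) x‖ₑ) +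
        (∫⁻ x, ‖g x‖ₑ) / volume (Metric.ball (0 : E d) (2⁻¹ ^ j)) * volume S := by
  filter_upwards [ev_scale R0 8, eventually_ge_atTop (j + 1)] with n hn0 hn S hS hSb
  obtain ⟨hn1, hn2⟩ := hn0
  have hle : (2⁻¹ : ℝ) ^ n ≤ 2⁻¹ ^ j :=
    pow_le_pow_of_le_one (by norm_num) (by norm_num) (by omega)
  have hle2 : (2⁻¹ : ℝ) ^ j ≤ 2 ^ n :=
    (pow_le_one₀ (by norm_num) (by norm_num)).trans (one_le_pow₀ (by norm_num))
  have hK : (2 : ℝ) * 2 ^ (n - j - 1) * 2⁻¹ ^ n = 2⁻¹ ^ j := by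
    obtain ⟨k, rfl⟩ := Nat.exists_eq_add_of_le hn
    rw [show j + 1 + k - j - 1 = k by omega, pow_add, pow_add]
    simp only [inv_pow, pow_one]
    field_simp
  have hK2 : (2 : ℝ) ^ (n - j - 1) * 2⁻¹ ^ n = 2⁻¹ ^ (j + 1) := by
    rw [pow_succ]
    linarith only [hK]
  have hR2 : R0 + 2 * 2 ^ n ≤ (4 : ℝ) ^ n := by
    have e : (2 : ℝ) * 2 ^ (2 * n - 1) * 2⁻¹ ^ n = 2 ^ n := by
      rw [← pow_succ', show 2 * n - 1 + 1 = n + n by omega, pow_add, mul_assoc, ← mul_pow]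
      norm_num
    have e2 : ((8 : ℝ≥0) : ℝ) * 2 ^ (2 * n - 1) * 2⁻¹ ^ n = 4 * 2 ^ n := by
      rw [← e]
      push_cast
      ring
    rw [e2] at hn2
    have : (0 : ℝ) < 2 ^ n := by positivity
    linarith
  have h1 := O.core (faS (2⁻¹ ^ n) (ph f ρ n)) (A.F1 n) (A.F2 n) (2⁻¹ ^ n) (fa_pow_pos n)
    (n - j - 1) S hS
  rw [hK, mul_assoc, hK2] at h1
  obtain ⟨L1, hL1⟩ := A.lip O n
  obtain ⟨L2, hL2⟩ := O.lip _ (A.F1 n) (A.F2 n) _ _ (fa_pow_pos n) hle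
  have h2 : ∀ᵐ x : E d, x ∈ S → ‖fderiv ℝ (uN O f ρ n) x‖ₑ ≤
      ‖fderiv ℝ (O.U (faS (2⁻¹ ^ n) (ph f ρ n)) (2⁻¹ ^ n) (2⁻¹ ^ j)) x‖ₑ +
      (∫⁻ x, ‖g x‖ₑ) / volume (Metric.ball (0 : E d) (2⁻¹ ^ j)) := by
    filter_upwards [hL1.ae_differentiableAt, hL2.ae_differentiableAt] with x hx1 hx2 hxS
    refine (O.large_grad (faS (2⁻¹ ^ n) (ph f ρ n)) (A.F1 n) (A.F2 n) (2⁻¹ ^ j) (2⁻¹ ^ n) (2 ^ n)
      (fa_pow_pos n) hle hle2 x hx1 hx2).trans ?_
    refine add_le_add le_rfl (ENNReal.div_le_div_right ?_ _)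
    refine le_trans ?_ (A.tot_grad n)
    refine le_trans (lintegral_mono_set (t := Metric.ball (0 : E d) (4 ^ n)) ?_) ?_
    · have h3 := hSb hxS
      rw [Metric.mem_ball] at h3
      exact (Metric.closedBall_subset_ball' (by linarith))
    · refine lintegral_mono fun x => ?_
      rw [enorm_le_iff_norm_le]
      exact faS_fderiv (fa_pow_pos n) (A.smooth n) x
  calc ∫⁻ x in S, ‖fderiv ℝ (uN O f ρ n) x‖ₑ
      ≤ ∫⁻ x in S, (‖fderiv ℝ (O.U (faS (2⁻¹ ^ n) (ph f ρ n)) (2⁻¹ ^ n) (2⁻¹ ^ j)) x‖ₑ +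
      (∫⁻ x, ‖g x‖ₑ) / volume (Metric.ball (0 : E d) (2⁻¹ ^ j))) :=
        setLIntegral_mono_ae' hS h2
    _ = (∫⁻ x in S, ‖fderiv ℝ (O.U (faS (2⁻¹ ^ n) (ph f ρ n)) (2⁻¹ ^ n) (2⁻¹ ^ j)) x‖ₑ) +
      (∫⁻ x, ‖g x‖ₑ) / volume (Metric.ball (0 : E d) (2⁻¹ ^ j)) * volume S := by
        rw [lintegral_add_right _ measurable_const, setLIntegral_const]
    _ ≤ _ := by
        refine add_le_add (h1.trans (mul_le_mul' le_rfl (lintegral_mono fun x => ?_))) le_rfl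
        rw [enorm_le_iff_norm_le]
        exact faS_fderiv (fa_pow_pos n) (A.smooth n) x

end Apx

end Vale.Agent.P137.BV
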