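import Vale.Agent.P137.H838.Tend

open MeasureTheory Set Filter Topology
open scoped ENNReal NNReal ContDiff

namespace Vale.Agent.P137.BV

open Vale.Agent.P137 Vale.Agent.P137.U

variable {d : ℕ}

/-! ### The gradient of the truncated maximal functions at large radii, local form -/

theorem enorm_avg_fderiv_le_loc {f : E d → ℝ} {δ₀ r : ℝ}
    (hδ : 0 < δ₀) (hr : δ₀ ≤ r) (y : E d) :
    ‖⨍ w in Metric.closedBall (0 : E d) 1, fderiv ℝ f (y + r • w)‖ₑ ≤
      (∫⁻ z in Metric.closedBall y r, ‖fderiv ℝ f z‖ₑ) / volume (Metric.ball (0 : E d) δ₀) := by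
  have hr0 : 0 < r := hδ.trans_le hr
  have hB : volume (Metric.closedBall (0 : E d) 1) ≠ ⊤ := measure_closedBall_lt_top.ne
  have hB0 : volume (Metric.closedBall (0 : E d) 1) ≠ 0 :=
    (Metric.measure_closedBall_pos _ _ one_pos).ne'
  have h1 : ‖⨍ w in Metric.closedBall (0 : E d) 1, fderiv ℝ f (y + r • w)‖ₑ ≤
      (volume (Metric.closedBall (0 : E d) 1))⁻¹ *
        ∫⁻ w in Metric.closedBall (0 : E d) 1, ‖fderiv ℝ f (y + r • w)‖ₑ := by
    rw [setAverage_eq, enorm_smul]
    refine mul_le_mul' ?_ ?_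
    · rw [← ofReal_norm, norm_inv, Real.norm_of_nonneg measureReal_nonneg, Measure.real,
        ENNReal.ofReal_inv_of_pos (ENNReal.toReal_pos hB0 hB), ENNReal.ofReal_toReal hB]
    · exact enorm_integral_le_lintegral_enorm _
  refine h1.trans ?_
  have h2 : ∫⁻ w in Metric.closedBall (0 : E d) 1, ‖fderiv ℝ f (y + r • w)‖ₑ =
      ENNReal.ofReal ((r ^ d)⁻¹) * ∫⁻ z in Metric.closedBall y r, ‖fderiv ℝ f z‖ₑ := by
    have h3 := lint_dil (d := d) hr0 (fun z => ‖fderiv ℝ f (y + z)‖ₑ) (Metric.closedBall 0 r)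
    have h4 : (fun y : E d => r • y) ⁻¹' Metric.closedBall (0 : E d) r =
        Metric.closedBall (0 : E d) 1 := by
      ext z
      simp only [mem_preimage, mem_closedBall_zero_iff, norm_smul, Real.norm_of_nonneg hr0.le]
      constructor
      · intro h
        nlinarith
      · intro h
        nlinarith
    rw [h4] at h3
    rw [h3]
    congr 1
    rw [← lintegral_indicator measurableSet_closedBall, ← lintegral_indicator
      measurableSet_closedBall, ← lintegral_add_left_eq_self
      ((Metric.closedBall y r).indicator fun z => ‖fderiv ℝ f z‖ₑ) y]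
    refine lintegral_congr fun z => ?_
    by_cases hz : z ∈ Metric.closedBall (0 : E d) r
    · rw [indicator_of_mem hz, indicator_of_mem]
      rw [Metric.mem_closedBall, dist_zero_right] at hz
      rw [Metric.mem_closedBall, dist_eq_norm, add_sub_cancel_left]
      exact hz
    · rw [indicator_of_notMem hz, indicator_of_notMem]
      rw [Metric.mem_closedBall, dist_zero_right] at hz
      rw [Metric.mem_closedBall, dist_eq_norm, add_sub_cancel_left]
      exact hz
  rw [h2, ENNReal.div_eq_inv_mul, ← mul_assoc]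
  refine mul_le_mul' ?_ le_rfl
  rw [Measure.addHaar_ball_of_pos _ _ hδ, finrank_euclideanSpace, Fintype.card_fin,
    ENNReal.mul_inv (Or.inl (by simp only [ne_eq, ENNReal.ofReal_eq_zero, not_le, hδ, pow_pos])) (Or.inl (by simp only [ne_eq, ENNReal.ofReal_ne_top, not_false_eq_true])), mul_comm,
    volume_closedBall_one_eq]
  refine mul_le_mul' ?_ le_rfl
  rw [← ENNReal.ofReal_inv_of_pos (by positivity)]
  refine ENNReal.ofReal_le_ofReal ?_
  gcongr

theorem fderiv_uu_large_loc (f : E d → ℝ) (hf : ContDiff ℝ 1 f) (hfc : HasCompactSupport f)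
    (δ₀ δ R : ℝ) (hδ : 0 < δ) (hδ₀ : δ ≤ δ₀) (hR : δ₀ ≤ R) (x : E d)
    (h1 : DifferentiableAt ℝ (uu f (fun _ => δ) R) x)
    (h2 : DifferentiableAt ℝ (uu f (fun _ => δ) δ₀) x) :
    ‖fderiv ℝ (uu f (fun _ => δ) R) x‖ₑ ≤ ‖fderiv ℝ (uu f (fun _ => δ) δ₀) x‖ₑ +
      (∫⁻ z in Metric.closedBall x (2 * R), ‖fderiv ℝ f z‖ₑ) /
        volume (Metric.ball (0 : E d) δ₀) := by
  obtain ⟨y, r, hr1, hr2, hr3, hr4⟩ := uu_attained (D := fun _ : E d => δ) (R := R) hf.continuous
    hfc continuous_const (fun _ => hδ) (fun _ => hδ₀.trans hR) x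
  rcases le_or_gt r δ₀ with hr | hr
  · refine le_trans (le_of_eq ?_) le_self_add
    congr 1
    have hmin : IsLocalMin (fun z => uu f (fun _ => δ) R z - uu f (fun _ => δ) δ₀ z) x := by
      refine Eventually.of_forall fun z => ?_
      have e1 : uu f (fun _ => δ) R x ≤ uu f (fun _ => δ) δ₀ x := by
        rw [← hr4]
        exact avg_le_uu hf.continuous hfc hr1 hr hr3
      obtain ⟨y', r', hr1', hr2', hr3', hr4'⟩ := uu_attained (D := fun _ : E d => δ) (R := δ₀)
        hf.continuous hfc continuous_const (fun _ => hδ) (fun _ => hδ₀) z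
      have e2 : uu f (fun _ => δ) δ₀ z ≤ uu f (fun _ => δ) R z := by
        rw [← hr4']
        exact avg_le_uu hf.continuous hfc hr1' (hr2'.trans hR) hr3'
      simp only
      linarith only [e1, e2]
    have h3 := hmin.hasFDerivAt_eq_zero (h1.hasFDerivAt.sub h2.hasFDerivAt)
    exact sub_eq_zero.1 h3
  · refine le_trans ?_ le_add_self
    have e1 : HasFDerivAt (fun h => uu f (fun _ => δ) R (x + h))
        (fderiv ℝ (uu f (fun _ => δ) R) x) 0 := by
      have h3 : HasFDerivAt (uu f (fun _ => δ) R) (fderiv ℝ (uu f (fun _ => δ) R) x) (x + 0) := by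
        rw [add_zero]
        exact h1.hasFDerivAt
      have h4 : HasFDerivAt (fun h : E d => x + h) (ContinuousLinearMap.id ℝ (E d)) 0 :=
        (hasFDerivAt_id 0).const_add x
      have h5 := h3.comp 0 h4
      rw [ContinuousLinearMap.comp_id] at h5
      exact h5
    have e2 := avg_hasFDerivAt hf hfc r y
    have hmin : IsLocalMin (fun h => uu f (fun _ => δ) R (x + h) - U.avg f (y + h) r) 0 := by
      refine Eventually.of_forall fun h => ?_
      simp only [add_zero]
      rw [hr4, sub_self, sub_nonneg]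
      refine avg_le_uu hf.continuous hfc hr1 hr2 ?_
      rwa [dist_add_right]
    have h3 := hmin.hasFDerivAt_eq_zero (e1.sub e2)
    rw [sub_eq_zero.1 h3]
    refine (enorm_avg_fderiv_le_loc (hδ.trans_le hδ₀) hr.le y).trans ?_
    refine ENNReal.div_le_div_right (lintegral_mono_set ?_) _
    refine Metric.closedBall_subset_closedBall' ?_
    rw [dist_comm]
    linarith

theorem fderiv_cu_large_loc (f : E d → ℝ) (hf : ContDiff ℝ 1 f) (hfc : HasCompactSupport f)
    (δ₀ δ R : ℝ) (hδ : 0 < δ) (hδ₀ : δ ≤ δ₀) (hR : δ₀ ≤ R) (x : E d)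
    (h1 : DifferentiableAt ℝ (Cen.cu f (fun _ => δ) R) x)
    (h2 : DifferentiableAt ℝ (Cen.cu f (fun _ => δ) δ₀) x) :
    ‖fderiv ℝ (Cen.cu f (fun _ => δ) R) x‖ₑ ≤ ‖fderiv ℝ (Cen.cu f (fun _ => δ) δ₀) x‖ₑ +
      (∫⁻ z in Metric.closedBall x (2 * R), ‖fderiv ℝ f z‖ₑ) /
        volume (Metric.ball (0 : E d) δ₀) := by
  obtain ⟨r, hr1, hr2, hr4⟩ := Cen.cu_attained (D := fun _ : E d => δ) (R := R) hf.continuous
    hfc (x := x) (hδ₀.trans hR)
  rcases le_or_gt r δ₀ with hr | hr
  · refine le_trans (le_of_eq ?_) le_self_add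
    congr 1
    refine core_fderiv_eq (fun z => ?_) ?_ h1 h2
    · obtain ⟨r', hr1', hr2', hr4'⟩ := Cen.cu_attained (D := fun _ : E d => δ) (R := δ₀)
        hf.continuous hfc (x := z) hδ₀
      rw [← hr4']
      exact Cen.avg_le_cu hf.continuous hfc hr1' (hr2'.trans hR)
    · rw [← hr4]
      exact Cen.avg_le_cu hf.continuous hfc hr1 hr
  · refine le_trans ?_ le_add_self
    have e3 : fderiv ℝ (Cen.cu f (fun _ => δ) R) x = fderiv ℝ (fun y => U.avg f y r) x :=
      Cen.fderiv_cu_of_nhds hf hfc (Eventually.of_forall fun _ => hr1) hr2 hr4 h1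
    have e2 := avg_hasFDerivAt hf hfc r x
    have e4 : fderiv ℝ (fun y => U.avg f y r) x =
        ⨍ w in Metric.closedBall (0 : E d) 1, fderiv ℝ f (x + r • w) := by
      rw [← e2.fderiv]
      have h3 : HasFDerivAt (fun y => U.avg f y r) (fderiv ℝ (fun y => U.avg f y r) x) (x + 0) := by
        rw [add_zero]
        exact (Cen.avg_differentiable_center hf hfc r x).hasFDerivAt
      have h4 : HasFDerivAt (fun h : E d => x + h) (ContinuousLinearMap.id ℝ (E d)) 0 :=
        (hasFDerivAt_id 0).const_add x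
      have h5 := h3.comp 0 h4
      rw [ContinuousLinearMap.comp_id] at h5
      exact h5.fderiv.symm
    rw [e3, e4]
    refine (enorm_avg_fderiv_le_loc (hδ.trans_le hδ₀) hr.le x).trans ?_
    refine ENNReal.div_le_div_right (lintegral_mono_set ?_) _
    exact Metric.closedBall_subset_closedBall (by linarith)

/-! ### The maximal function of a mollified function -/

theorem avg_mol_le (ρ : ContDiffBump (0 : E d)) {h : E d → ℝ} (hh : Integrable h) (y : E d)
    {r : ℝ} (hr : 0 < r) :
    (∫⁻ z in Metric.ball y r, ‖mol ρ h z‖ₑ) / volume (Metric.ball y r) ≤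
      ∫⁻ t, ENNReal.ofReal (ρ.normed volume t) *
        ((∫⁻ z in Metric.ball (y - t) r, ‖h z‖ₑ) / volume (Metric.ball (y - t) r)) := by
  have hci : Integrable (fun p : E d × E d => ρ.normed volume p.2 * h (p.1 - p.2))
      (volume.prod volume) :=
    (ρ.integrable_normed (μ := volume)).convolution_integrand (ContinuousLinearMap.lsmul ℝ ℝ) hh
  have hae : AEMeasurable (Function.uncurry fun (z : E d) (t : E d) =>
      ENNReal.ofReal (ρ.normed volume t) * ‖h (z - t)‖ₑ)
      ((volume.restrict (Metric.ball y r)).prod volume) := by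
    have h1 : AEMeasurable (fun p : E d × E d => ‖ρ.normed volume p.2 * h (p.1 - p.2)‖ₑ)
        ((volume.restrict (Metric.ball y r)).prod volume) := by
      refine hci.aestronglyMeasurable.enorm.mono_measure ?_
      exact Measure.prod_mono Measure.restrict_le_self le_rfl
    refine h1.congr (ae_of_all _ fun p => ?_)
    simp only [Function.uncurry]
    rw [enorm_mul, Real.enorm_of_nonneg (ρ.nonneg_normed _)]
  have hball : ∀ t : E d, ∫⁻ z in Metric.ball y r, ‖h (z - t)‖ₑ =
      ∫⁻ z in Metric.ball (y - t) r, ‖h z‖ₑ := by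
    intro t
    rw [← lintegral_indicator measurableSet_ball, ← lintegral_indicator measurableSet_ball,
      ← lintegral_sub_right_eq_self ((Metric.ball (y - t) r).indicator fun z => ‖h z‖ₑ) t]
    refine lintegral_congr fun z => ?_
    by_cases hz : z ∈ Metric.ball y r
    · rw [indicator_of_mem hz, indicator_of_mem]
      rw [Metric.mem_ball, dist_eq_norm] at hz ⊢
      rwa [sub_sub_sub_cancel_right]
    · rw [indicator_of_notMem hz, indicator_of_notMem]
      rw [Metric.mem_ball, dist_eq_norm] at hz ⊢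
      rwa [sub_sub_sub_cancel_right]
  have hv : ∀ t : E d, volume (Metric.ball (y - t) r) = volume (Metric.ball y r) := fun t => by
    rw [Measure.addHaar_ball_of_pos _ _ hr, Measure.addHaar_ball_of_pos _ _ hr]
  calc (∫⁻ z in Metric.ball y r, ‖mol ρ h z‖ₑ) / volume (Metric.ball y r)
      ≤ (∫⁻ z in Metric.ball y r, ∫⁻ t, ENNReal.ofReal (ρ.normed volume t) * ‖h (z - t)‖ₑ) /
        volume (Metric.ball y r) := by
        refine ENNReal.div_le_div_right (lintegral_mono fun z => ?_) _
        rw [mol_apply]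
        refine (enorm_integral_le_lintegral_enorm _).trans (le_of_eq ?_)
        refine lintegral_congr fun t => ?_
        rw [smul_eq_mul, enorm_mul, Real.enorm_of_nonneg (ρ.nonneg_normed _)]
    _ = (∫⁻ t, ∫⁻ z in Metric.ball y r, ENNReal.ofReal (ρ.normed volume t) * ‖h (z - t)‖ₑ) /
        volume (Metric.ball y r) := by
        rw [lintegral_lintegral_swap hae]
    _ = ∫⁻ t, ENNReal.ofReal (ρ.normed volume t) *
        ((∫⁻ z in Metric.ball (y - t) r, ‖h z‖ₑ) / volume (Metric.ball (y - t) r)) := by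
        rw [ENNReal.div_eq_inv_mul, ← lintegral_const_mul' _ _
          (ENNReal.inv_ne_top.2 (Metric.measure_ball_pos volume y hr).ne')]
        refine lintegral_congr fun t => ?_
        rw [lintegral_const_mul' _ _ ENNReal.ofReal_ne_top, hball, hv, ENNReal.div_eq_inv_mul]
        ring

theorem unc_mol_le (ρ : ContDiffBump (0 : E d)) {h : E d → ℝ} (hh : Integrable h) (x : E d) :
    uncenteredMax (mol ρ h) x ≤
      ∫⁻ t, ENNReal.ofReal (ρ.normed volume t) * uncenteredMax h (x - t) := by
  conv_lhs => unfold uncenteredMax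
  refine iSup_le fun y => iSup_le fun r => iSup_le fun hr => iSup_le fun hx => ?_
  refine (avg_mol_le ρ hh y hr).trans (lintegral_mono fun t => ?_)
  gcongr
  unfold uncenteredMax
  refine le_iSup_of_le (y - t) (le_iSup_of_le r (le_iSup_of_le hr (le_iSup_of_le ?_ le_rfl)))
  rw [Metric.mem_ball, dist_eq_norm] at hx ⊢
  rwa [sub_sub_sub_cancel_right]

theorem cen_mol_le (ρ : ContDiffBump (0 : E d)) {h : E d → ℝ} (hh : Integrable h) (x : E d) :
    centeredMax (mol ρ h) x ≤
      ∫⁻ t, ENNReal.ofReal (ρ.normed volume t) * centeredMax h (x - t) := by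
  conv_lhs => unfold centeredMax
  refine iSup_le fun r => iSup_le fun hr => ?_
  refine (avg_mol_le ρ hh x hr).trans (lintegral_mono fun t => ?_)
  gcongr
  unfold centeredMax
  exact le_iSup_of_le r (le_iSup_of_le hr le_rfl)

end Vale.Agent.P137.BV
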