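import Vale.Agent.P137.H838.Op
import Vale.Agent.P137.C.Main

open MeasureTheory Set Filter Topology
open scoped ENNReal NNReal ContDiff

namespace Vale.Agent.P137.BV

open Vale.Agent.P137 Vale.Agent.P137.U

variable {d : ℕ}

/-- The uncentered operator. -/
theorem exists_opU (hd : 0 < d) : ∃ O : Op d, O.N = uncenteredMax := by
  obtain ⟨C, C', hC⟩ := core_scaled hd
  have hCore : FaCore d C C' := hC
  exact ⟨{
    U := fun F δ R => uu F (fun _ => δ) R
    N := uncenteredMax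
    C := C
    C' := C'
    lip := fun F hF hc δ R hδ hR => fa_uu_lip hF hc hδ hR
    nonneg := fun F hF hc h0 δ R hδ hR x => fa_uu_nonneg hF hc h0 hδ hR x
    core := fun f hf hfc δ hδ K S hS => hC f hf hfc δ hδ K S hS
    tend := fun f h φ hh hle heq hφ hφc _ hφf x => uu_tendsto_loc hh hle heq hφ hφc hφf x
    ball := fun h φ hh h1 h2 h3 B hB h4 R hR => by
      refine ne_top_of_le_ne_top ?_ ((FaApprox.mk h1 h2 h3).ball_bound hd hCore hh h4 hR)
      exact ENNReal.mul_ne_top ENNReal.ofReal_ne_top (ENNReal.mul_ne_top ENNReal.coe_ne_top hB)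
    large := fun f h A hA R hR hh x hx => unc_large hA hR hh hx }, rfl⟩

/-- The centered operator. -/
theorem exists_opC (hd : 0 < d) : ∃ O : Op d, O.N = centeredMax := by
  obtain ⟨C, C', hCore⟩ := Cen.Co2.faCore_of hd (Cen.specForest hd) (Cen.specOrigin d)
    (Cen.perTree hd
      (Cen.cell (Cen.specII d) (Cen.specId hd) (Cen.specPW2 (Cen.pw1 hd (Cen.specGood hd)
        (Cen.specBad hd) (Cen.specId hd)))
        (Cen.pwb hd (Cen.specBad hd)) (Cen.specMajB hd) (Cen.specMajB' hd) (Cen.Mj.specMajC hd)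
        (Cen.Mj.specMajD hd))
      (Cen.specMono d))
  exact ⟨{
    U := fun F δ R => Cen.cu F (fun _ => δ) R
    N := centeredMax
    C := C
    C' := C'
    lip := fun F hF hc δ R hδ hR => Cen.fa_cu_lip hF hc hδ hR
    nonneg := fun F hF hc h0 δ R hδ hR x => Cen.fa_cu_nonneg hF hc h0 hδ hR x
    core := fun f hf hfc δ hδ K S hS => hCore f hf hfc δ hδ K S hS
    tend := fun f h φ hh hle heq hφ hφc _ hφf x => cu_tendsto_loc hh hle heq hφ hφc hφf x
    ball := fun h φ hh h1 h2 h3 B hB h4 R hR => by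
      refine ne_top_of_le_ne_top ?_ ((Cen.FaApprox.mk h1 h2 h3).ball_bound hd hCore hh h4 hR)
      exact ENNReal.mul_ne_top ENNReal.ofReal_ne_top (ENNReal.mul_ne_top ENNReal.coe_ne_top hB)
    large := fun f h A hA R hR hh x hx => cen_large hA hR hh hx }, rfl⟩

theorem tf_le_totalVar {f : E d → ℝ} (hV : totalVar f ≠ ⊤) {Φ : E d → E d} (hΦ : TF Φ) :
    ∫ x, f x * divg Φ x ≤ (totalVar f).toReal := by
  have h1 : ENNReal.ofReal (∫ x, f x * divg Φ x) ≤ totalVar f := by
    unfold totalVar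
    exact le_iSup_of_le Φ (le_iSup_of_le hΦ.smooth (le_iSup_of_le hΦ.compact
      (le_iSup_of_le hΦ.le_one le_rfl)))
  exact (ENNReal.ofReal_le_iff_le_toReal hV).1 h1

theorem totalVar_le {f : E d → ℝ} {V : ℝ} (hV : ∀ Φ, TF Φ → ∫ x, f x * divg Φ x ≤ V) :
    totalVar f ≤ ENNReal.ofReal V := by
  unfold totalVar
  exact iSup_le fun Φ => iSup_le fun h1 => iSup_le fun h2 => iSup_le fun h3 =>
    ENNReal.ofReal_le_ofReal (hV Φ ⟨h1, h2, h3⟩)

theorem variation_of_op (hd : 0 < d) (O : Op d) {C : ℝ} (hC : (O.C : ℝ) ≤ C) {f : E d → ℝ}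
    (hf : LocallyIntegrable f) (hV : totalVar f ≠ ⊤) :
    (∀ᵐ x, O.N f x ≠ ⊤) ∧ LocallyIntegrable (fun x => (O.N f x).toReal) ∧
      totalVar (fun x => (O.N f x).toReal) ≤ ENNReal.ofReal C * totalVar f := by
  obtain ⟨h1, h2, h3⟩ := O.main hd hf ENNReal.toReal_nonneg (fun Φ hΦ => tf_le_totalVar hV hΦ)
  refine ⟨h1, h2, (totalVar_le h3).trans ?_⟩
  rw [ENNReal.ofReal_mul (NNReal.coe_nonneg O.C), ENNReal.ofReal_toReal hV]
  gcongr

/-- Both operators, with the same constant: the `W^{1,1}` bounds and the variation bounds. -/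
theorem all_bounds (d : ℕ) (hd : 0 < d) :
    ∃ C : ℝ, CenteredBound (EuclideanSpace ℝ (Fin d)) C ∧
      UncenteredBound (EuclideanSpace ℝ (Fin d)) C ∧
      CenteredVariation d C ∧ UncenteredVariation d C := by
  obtain ⟨C₁, h₁, h₂⟩ := bothBound d hd
  obtain ⟨O, hO⟩ := exists_opC hd
  obtain ⟨O', hO'⟩ := exists_opU hd
  have hI : ∀ g : EuclideanSpace ℝ (Fin d) → EuclideanSpace ℝ (Fin d), 0 ≤ ∫ x, ‖g x‖ := fun g =>
    MeasureTheory.integral_nonneg fun _ => norm_nonneg _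
  refine ⟨max C₁ (max O.C O'.C), ?_, ?_, ?_, ?_⟩
  · intro f g hf hg hw
    obtain ⟨h3, G, h4, h5, h6⟩ := h₁ f g hf hg hw
    exact ⟨h3, G, h4, h5, h6.trans (mul_le_mul_of_nonneg_right (le_max_left _ _) (hI g))⟩
  · intro f g hf hg hw
    obtain ⟨h3, G, h4, h5, h6⟩ := h₂ f g hf hg hw
    exact ⟨h3, G, h4, h5, h6.trans (mul_le_mul_of_nonneg_right (le_max_left _ _) (hI g))⟩
  · intro f hf hV
    have := variation_of_op hd O (C := max C₁ (max O.C O'.C))
      ((le_max_left _ _).trans (le_max_right _ _)) hf hV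
    rw [hO] at this
    exact this
  · intro f hf hV
    have := variation_of_op hd O' (C := max C₁ (max O.C O'.C))
      ((le_max_right _ _).trans (le_max_right _ _)) hf hV
    rw [hO'] at this
    exact this

end Vale.Agent.P137.BV
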