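import Vale.Agent.P137.H838.Fin
import Vale.Agent.P137.H838.Main
import Vale.Agent.P137.H838.DefsH

open MeasureTheory Set Filter Topology
open scoped ENNReal NNReal ContDiff

namespace Vale.Agent.P137.BV

open Vale.Agent.P137 Vale.Agent.P137.U

variable {d : ℕ}

/-- The uncentered operator. -/
theorem exists_op2U (hd : 0 < d) : ∃ O : Op2 d, O.N = uncenteredMax := by
  obtain ⟨C, C', hC⟩ := core_scaled hd
  have hCore : FaCore d C C' := hC
  exact ⟨{
    U := fun F δ R => uu F (fun _ => δ) R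
    N := uncenteredMax
    C := C
    C' := C'
    lip := fun F hF hc δ R hδ hR => fa_uu_lip hF hc hδ hR
    nonneg := fun F hF hc h0 δ R hδ hR x => fa_uu_nonneg hF hc h0 hδ hR x
    core := fun f hf hfc δ hδ K S hS => hC f hf hfc δ hδ K S hS
    tend := fun f h φ hh hle heq hφ hφc _ hφf x => uu_tendsto_loc hh hle heq hφ hφc hφf x
    ball := fun h φ hh h1 h2 h3 B hB h4 R hR => by
      refine ne_top_of_le_ne_top ?_ ((FaApprox.mk h1 h2 h3).ball_bound hd hCore hh h4 hR)
      exact ENNReal.mul_ne_top ENNReal.ofReal_ne_top (ENNReal.mul_ne_top ENNReal.coe_ne_top hB)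
    large := fun f h A hA R hR hh x hx => unc_large hA hR hh hx
    large_grad := fun f hf hfc δ₀ δ R hδ hδ₀ hR x h1 h2 =>
      fderiv_uu_large_loc f hf hfc δ₀ δ R hδ hδ₀ hR x h1 h2
    le_max := fun F φ hF hφ h δ R hδ hR x => fa_uu_le_max hF hφ h hδ hR x
    mol_le := fun ρ h hh x => unc_mol_le ρ hh x
    mono := fun f h hle x => unc_mono hle x }, rfl⟩

/-- The centered operator. -/
theorem exists_op2C (hd : 0 < d) : ∃ O : Op2 d, O.N = centeredMax := by
  obtain ⟨C, C', hCore⟩ := Cen.Co2.faCore_of hd (Cen.specForest hd) (Cen.specOrigin d)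
    (Cen.perTree hd
      (Cen.cell (Cen.specII d) (Cen.specId hd) (Cen.specPW2 (Cen.pw1 hd (Cen.specGood hd)
        (Cen.specBad hd) (Cen.specId hd)))
        (Cen.pwb hd (Cen.specBad hd)) (Cen.specMajB hd) (Cen.specMajB' hd) (Cen.Mj.specMajC hd)
        (Cen.Mj.specMajD hd))
      (Cen.specMono d))
  exact ⟨{
    U := fun F δ R => Cen.cu F (fun _ => δ) R
    N := centeredMax
    C := C
    C' := C'
    lip := fun F hF hc δ R hδ hR => Cen.fa_cu_lip hF hc hδ hR
    nonneg := fun F hF hc h0 δ R hδ hR x => Cen.fa_cu_nonneg hF hc h0 hδ hR x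
    core := fun f hf hfc δ hδ K S hS => hCore f hf hfc δ hδ K S hS
    tend := fun f h φ hh hle heq hφ hφc _ hφf x => cu_tendsto_loc hh hle heq hφ hφc hφf x
    ball := fun h φ hh h1 h2 h3 B hB h4 R hR => by
      refine ne_top_of_le_ne_top ?_ ((Cen.FaApprox.mk h1 h2 h3).ball_bound hd hCore hh h4 hR)
      exact ENNReal.mul_ne_top ENNReal.ofReal_ne_top (ENNReal.mul_ne_top ENNReal.coe_ne_top hB)
    large := fun f h A hA R hR hh x hx => cen_large hA hR hh hx
    large_grad := fun f hf hfc δ₀ δ R hδ hδ₀ hR x h1 h2 =>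
      fderiv_cu_large_loc f hf hfc δ₀ δ R hδ hδ₀ hR x h1 h2
    le_max := fun F φ hF hφ h δ R hδ hR x => Cen.fa_cu_le_max hF hφ h hδ hR x
    mol_le := fun ρ h hh x => cen_mol_le ρ hh x
    mono := fun f h hle x => cen_mono hle x }, rfl⟩

/-- Both operators, with the same constant: the gradient bounds for all locally integrable
functions with an integrable weak gradient, and the variation bounds. -/
theorem hom_bounds (d : ℕ) (hd : 0 < d) :
    ∃ C : ℝ, CenteredBound (EuclideanSpace ℝ (Fin d)) C ∧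
      UncenteredBound (EuclideanSpace ℝ (Fin d)) C ∧
      CenteredHom d C ∧ UncenteredHom d C ∧
      CenteredVariation d C ∧ UncenteredVariation d C := by
  obtain ⟨O, hO⟩ := exists_op2C hd
  obtain ⟨O', hO'⟩ := exists_op2U hd
  have hI : ∀ g : EuclideanSpace ℝ (Fin d) → EuclideanSpace ℝ (Fin d), 0 ≤ ∫ x, ‖g x‖ := fun g =>
    MeasureTheory.integral_nonneg fun _ => norm_nonneg _
  have hd1 : (1 : ℝ) ≤ 2 * d := by
    have : (1 : ℝ) ≤ d := by exact_mod_cast hd
    linarith
  set K : ℝ := 2 * d * max O.C O'.C with hK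
  have hm : (0 : ℝ) ≤ max (O.C : ℝ) O'.C := (NNReal.coe_nonneg O.C).trans (le_max_left _ _)
  have hK1 : 2 * d * (O.C : ℝ) ≤ K := by
    rw [hK]
    exact mul_le_mul_of_nonneg_left (le_max_left _ _) (by positivity)
  have hK2 : 2 * d * (O'.C : ℝ) ≤ K := by
    rw [hK]
    exact mul_le_mul_of_nonneg_left (le_max_right _ _) (by positivity)
  have hK3 : (O.C : ℝ) ≤ K := by nlinarith [NNReal.coe_nonneg O.C]
  have hK4 : (O'.C : ℝ) ≤ K := by nlinarith [NNReal.coe_nonneg O'.C]
  have hC : CenteredHom d K := by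
    intro f g hg hw
    obtain ⟨h1, G, h2, h3, h4⟩ := O.main hd hg (isWeak_of_weakGrad hw)
    rw [hO] at h1 h3
    exact ⟨h1, G, h2, weakGrad_of_isWeak h3,
      h4.trans (mul_le_mul_of_nonneg_right hK1 (hI g))⟩
  have hU : UncenteredHom d K := by
    intro f g hg hw
    obtain ⟨h1, G, h2, h3, h4⟩ := O'.main hd hg (isWeak_of_weakGrad hw)
    rw [hO'] at h1 h3
    exact ⟨h1, G, h2, weakGrad_of_isWeak h3,
      h4.trans (mul_le_mul_of_nonneg_right hK2 (hI g))⟩
  refine ⟨K, fun f g _ hg hw => hC f g hg hw, fun f g _ hg hw => hU f g hg hw, hC, hU, ?_, ?_⟩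
  · intro f hf hV
    have := variation_of_op hd O.toOp hK3 hf hV
    rw [hO] at this
    exact this
  · intro f hf hV
    have := variation_of_op hd O'.toOp hK4 hf hV
    rw [hO'] at this
    exact this

end Vale.Agent.P137.BV
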