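import Vale.Agent.P137.H838.Approx
import Vale.Agent.P137.C.Final

open MeasureTheory Set Filter Topology
open scoped ENNReal NNReal ContDiff

namespace Vale.Agent.P137.BV

open Vale.Agent.P137 Vale.Agent.P137.U

variable {d : ℕ}

theorem unc_mono {f h : E d → ℝ} (hle : ∀ x, |h x| ≤ |f x|) (x : E d) :
    uncenteredMax h x ≤ uncenteredMax f x := by
  unfold uncenteredMax
  refine iSup_mono fun y => iSup_mono fun r => iSup_mono fun hr => iSup_mono fun hx => ?_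
  gcongr with z
  rw [enorm_le_iff_norm_le]
  exact hle z

theorem cen_mono {f h : E d → ℝ} (hle : ∀ x, |h x| ≤ |f x|) (x : E d) :
    centeredMax h x ≤ centeredMax f x := by
  unfold centeredMax
  refine iSup_mono fun r => iSup_mono fun hr => ?_
  gcongr with z
  rw [enorm_le_iff_norm_le]
  exact hle z

theorem ttA_nonneg (f : E d → ℝ) (y : E d) (r : ℝ) : 0 ≤ ttA f y r :=
  mul_nonneg (inv_nonneg.2 measureReal_nonneg) (integral_nonneg fun _ => abs_nonneg _)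

theorem ev_ball (y : E d) (r : ℝ) : ∀ᶠ n : ℕ in atTop,
    Metric.ball y r ⊆ Metric.ball (0 : E d) (4 ^ n) := by
  have h3 : ∀ᶠ n : ℕ in atTop, ‖y‖ + r ≤ (4 : ℝ) ^ n :=
    (tendsto_pow_atTop_atTop_of_one_lt (by norm_num : (1 : ℝ) < 4)).eventually_ge_atTop _
  filter_upwards [h3] with n hn
  refine Metric.ball_subset_ball' ?_
  rw [dist_zero_right]
  linarith

/-- The averages over a fixed ball are eventually those of `f`. -/
theorem ev_ttA {f : E d → ℝ} {h : ℕ → E d → ℝ} (hh : ∀ n, Integrable (h n))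
    (heq : ∀ n, ∀ x ∈ Metric.ball (0 : E d) (4 ^ n), h n x = f x) (y : E d) {r : ℝ} (hr : 0 < r) :
    (∫⁻ z in Metric.ball y r, ‖f z‖ₑ) / volume (Metric.ball y r) ≠ ⊤ ∧
    ∀ᶠ n in atTop, ttA (h n) y r =
      ((∫⁻ z in Metric.ball y r, ‖f z‖ₑ) / volume (Metric.ball y r)).toReal := by
  have h1 : ∀ᶠ n in atTop, ENNReal.ofReal (ttA (h n) y r) =
      (∫⁻ z in Metric.ball y r, ‖f z‖ₑ) / volume (Metric.ball y r) := by
    filter_upwards [ev_ball y r] with n hn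
    rw [tt_A_ofReal (hh n) y hr]
    congr 1
    exact setLIntegral_congr_fun measurableSet_ball fun z hz => by rw [heq n z (hn hz)]
  constructor
  · obtain ⟨n, hn⟩ := h1.exists
    rw [← hn]
    exact ENNReal.ofReal_ne_top
  · filter_upwards [h1] with n hn
    rw [← hn, ENNReal.toReal_ofReal (ttA_nonneg _ _ _)]

theorem key_avg {h : ℕ → E d → ℝ} (hh : ∀ n, Integrable (h n)) {φ : ℕ → E d → ℝ}
    (hφ : ∀ n, Continuous (φ n)) (hφc : ∀ n, HasCompactSupport (φ n))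
    (hφf : ∀ n, ∃ a b : ℝ, 0 ≤ a ∧ 0 ≤ b ∧ a ≤ 2⁻¹ ^ n ∧ b ≤ 2⁻¹ ^ (n * (d + 1)) ∧
      ∃ ψ : E d → ℝ, Integrable ψ ∧ (∀ x, 0 ≤ ψ x) ∧ (∀ x, |φ n x - abs (h n x)| ≤ a + ψ x) ∧
        ∫ x, ψ x ≤ b) (n : ℕ) (y : E d) (r : ℝ) (hr : (2⁻¹ : ℝ) ^ n ≤ r) :
    |U.avg (φ n) y r - ttA (h n) y r| ≤
      2⁻¹ ^ n * (1 + 1 / volume.real (Metric.ball (0 : E d) 1)) := by
  have hv := tt_vol_pos (d := d)
  set v := volume.real (Metric.ball (0 : E d) 1) with hvdef
  obtain ⟨a, b, ha, hb, ha2, hb2, ψ, hψi, hψ0, hψ, hψb⟩ := hφf n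
  have h1 := tt_avg_close (hh n) ((hφ n).integrable_of_hasCompactSupport (hφc n)) hψi hψ0 hψ hψb y
    (s := 2⁻¹ ^ n) (by positivity) hr
  refine h1.trans ?_
  have h2 : b / ((2⁻¹ ^ n) ^ d * v) ≤ 2⁻¹ ^ (n * (d + 1)) / ((2⁻¹ ^ n) ^ d * v) := by
    gcongr
  have h3 : (2⁻¹ : ℝ) ^ (n * (d + 1)) / ((2⁻¹ ^ n) ^ d * v) = 2⁻¹ ^ n * (1 / v) := by
    rw [pow_mul, pow_succ]
    field_simp
  rw [← hvdef]
  linarith only [ha2, h2, h3]

theorem tends_c (d : ℕ) : Tendsto (fun n : ℕ => (2⁻¹ : ℝ) ^ n *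
    (1 + 1 / volume.real (Metric.ball (0 : E d) 1))) atTop (𝓝 0) := by
  have h1 : Tendsto (fun n : ℕ => (2⁻¹ : ℝ) ^ n) atTop (𝓝 0) :=
    tendsto_pow_atTop_nhds_zero_of_lt_one (by norm_num) (by norm_num)
  simpa only [inv_pow, one_div, zero_mul] using
    h1.mul_const (1 + 1 / volume.real (Metric.ball (0 : E d) 1))

theorem uu_tendsto_loc {f : E d → ℝ} {h : ℕ → E d → ℝ} (hh : ∀ n, Integrable (h n))
    (hle : ∀ n x, |h n x| ≤ |f x|) (heq : ∀ n, ∀ x ∈ Metric.ball (0 : E d) (4 ^ n), h n x = f x)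
    {φ : ℕ → E d → ℝ} (hφ : ∀ n, Continuous (φ n)) (hφc : ∀ n, HasCompactSupport (φ n))
    (hφf : ∀ n, ∃ a b : ℝ, 0 ≤ a ∧ 0 ≤ b ∧ a ≤ 2⁻¹ ^ n ∧ b ≤ 2⁻¹ ^ (n * (d + 1)) ∧
      ∃ ψ : E d → ℝ, Integrable ψ ∧ (∀ x, 0 ≤ ψ x) ∧ (∀ x, |φ n x - abs (h n x)| ≤ a + ψ x) ∧
        ∫ x, ψ x ≤ b) (x : E d) :
    Tendsto (fun n => ENNReal.ofReal (uu (φ n) (fun _ => 2⁻¹ ^ n) (2 ^ n) x)) atTop
      (𝓝 (uncenteredMax f x)) := by
  have hv := tt_vol_pos (d := d)
  have key := key_avg hh hφ hφc hφf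
  have hc := tends_c d
  set v := volume.real (Metric.ball (0 : E d) 1) with hvdef
  have hR : ∀ n : ℕ, (2⁻¹ : ℝ) ^ n ≤ 2 ^ n := fun n =>
    pow_le_pow_left₀ (by norm_num) (by norm_num) n
  rw [tendsto_order]
  constructor
  · intro a' ha'
    unfold uncenteredMax at ha'
    simp only [lt_iSup_iff] at ha'
    obtain ⟨y, r, hr, hx, h0⟩ := ha'
    obtain ⟨hI, hev⟩ := ev_ttA hh heq y hr
    set I := (∫⁻ z in Metric.ball y r, ‖f z‖ₑ) / volume (Metric.ball y r) with hIdef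
    rw [← ENNReal.ofReal_toReal hI] at h0
    have h1 : Tendsto (fun n : ℕ => ENNReal.ofReal (I.toReal - 2⁻¹ ^ n * (1 + 1 / v))) atTop
        (𝓝 (ENNReal.ofReal I.toReal)) := by
      apply ENNReal.tendsto_ofReal
      simpa only [inv_pow, one_div, sub_zero] using hc.const_sub I.toReal
    have h2 : ∀ᶠ n : ℕ in atTop, (2⁻¹ : ℝ) ^ n < r :=
      (tendsto_pow_atTop_nhds_zero_of_lt_one (by norm_num) (by norm_num :
        (2⁻¹ : ℝ) < 1)).eventually_lt_const hr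
    have h3 : ∀ᶠ n : ℕ in atTop, r ≤ (2 : ℝ) ^ n :=
      (tendsto_pow_atTop_atTop_of_one_lt (by norm_num : (1 : ℝ) < 2)).eventually_ge_atTop r
    filter_upwards [h1.eventually_const_lt h0, h2, h3, hev] with n h4 h5 h6 h9
    refine h4.trans_le (ENNReal.ofReal_le_ofReal ?_)
    have h7 := avg_le_uu (f := φ n) (D := fun _ => 2⁻¹ ^ n) (R := 2 ^ n) (hφ n) (hφc n)
      (x := x) (y := y) (r := r) h5.le h6 (Metric.mem_ball.1 hx).le
    have h8 := abs_le.1 (key n y r h5.le)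
    rw [h9] at h8
    linarith only [h7, h8]
  · intro a' ha'
    have h1 : Tendsto (fun n : ℕ => uncenteredMax f x + ENNReal.ofReal (2⁻¹ ^ n * (1 + 1 / v)))
        atTop (𝓝 (uncenteredMax f x + ENNReal.ofReal 0)) :=
      (ENNReal.tendsto_ofReal hc).const_add _
    rw [ENNReal.ofReal_zero, add_zero] at h1
    filter_upwards [h1.eventually_lt_const ha'] with n hn
    refine lt_of_le_of_lt ?_ hn
    by_cases htop : uncenteredMax f x = ⊤
    · rw [htop, top_add]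
      exact le_top
    · rw [← ENNReal.ofReal_toReal htop, ← ENNReal.ofReal_add ENNReal.toReal_nonneg (by positivity)]
      apply ENNReal.ofReal_le_ofReal
      unfold uu
      apply csSup_le
      · exact ⟨_, x, 2 ^ n, hR n, le_rfl, by simp only [dist_self, Nat.ofNat_nonneg, pow_nonneg], rfl⟩
      · rintro t ⟨y, r, hr1, hr2, hr3, rfl⟩
        have hr0 : 0 < r := lt_of_lt_of_le (by positivity) hr1
        have h8 := abs_le.1 (key n y r hr1)
        have h9 := (tt_A_le_max (hh n) y x hr0 hr3).trans (unc_mono (hle n) x)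
        rw [← ENNReal.ofReal_toReal htop] at h9
        have h10 := (ENNReal.ofReal_le_ofReal_iff ENNReal.toReal_nonneg).1 h9
        linarith only [h8, h10]

theorem cu_tendsto_loc {f : E d → ℝ} {h : ℕ → E d → ℝ} (hh : ∀ n, Integrable (h n))
    (hle : ∀ n x, |h n x| ≤ |f x|) (heq : ∀ n, ∀ x ∈ Metric.ball (0 : E d) (4 ^ n), h n x = f x)
    {φ : ℕ → E d → ℝ} (hφ : ∀ n, Continuous (φ n)) (hφc : ∀ n, HasCompactSupport (φ n))
    (hφf : ∀ n, ∃ a b : ℝ, 0 ≤ a ∧ 0 ≤ b ∧ a ≤ 2⁻¹ ^ n ∧ b ≤ 2⁻¹ ^ (n * (d + 1)) ∧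
      ∃ ψ : E d → ℝ, Integrable ψ ∧ (∀ x, 0 ≤ ψ x) ∧ (∀ x, |φ n x - abs (h n x)| ≤ a + ψ x) ∧
        ∫ x, ψ x ≤ b) (x : E d) :
    Tendsto (fun n => ENNReal.ofReal (Cen.cu (φ n) (fun _ => 2⁻¹ ^ n) (2 ^ n) x)) atTop
      (𝓝 (centeredMax f x)) := by
  have hv := tt_vol_pos (d := d)
  have key := key_avg hh hφ hφc hφf
  have hc := tends_c d
  set v := volume.real (Metric.ball (0 : E d) 1) with hvdef
  have hR : ∀ n : ℕ, (2⁻¹ : ℝ) ^ n ≤ 2 ^ n := fun n =>
    pow_le_pow_left₀ (by norm_num) (by norm_num) n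
  rw [tendsto_order]
  constructor
  · intro a' ha'
    unfold centeredMax at ha'
    simp only [lt_iSup_iff] at ha'
    obtain ⟨r, hr, h0⟩ := ha'
    obtain ⟨hI, hev⟩ := ev_ttA hh heq x hr
    set I := (∫⁻ z in Metric.ball x r, ‖f z‖ₑ) / volume (Metric.ball x r) with hIdef
    rw [← ENNReal.ofReal_toReal hI] at h0
    have h1 : Tendsto (fun n : ℕ => ENNReal.ofReal (I.toReal - 2⁻¹ ^ n * (1 + 1 / v))) atTop
        (𝓝 (ENNReal.ofReal I.toReal)) := by
      apply ENNReal.tendsto_ofReal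
      simpa only [inv_pow, one_div, sub_zero] using hc.const_sub I.toReal
    have h2 : ∀ᶠ n : ℕ in atTop, (2⁻¹ : ℝ) ^ n < r :=
      (tendsto_pow_atTop_nhds_zero_of_lt_one (by norm_num) (by norm_num :
        (2⁻¹ : ℝ) < 1)).eventually_lt_const hr
    have h3 : ∀ᶠ n : ℕ in atTop, r ≤ (2 : ℝ) ^ n :=
      (tendsto_pow_atTop_atTop_of_one_lt (by norm_num : (1 : ℝ) < 2)).eventually_ge_atTop r
    filter_upwards [h1.eventually_const_lt h0, h2, h3, hev] with n h4 h5 h6 h9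
    refine h4.trans_le (ENNReal.ofReal_le_ofReal ?_)
    have h7 := Cen.avg_le_cu (f := φ n) (D := fun _ => 2⁻¹ ^ n) (R := 2 ^ n) (hφ n) (hφc n)
      (x := x) (r := r) h5.le h6
    have h8 := abs_le.1 (key n x r h5.le)
    rw [h9] at h8
    linarith only [h7, h8]
  · intro a' ha'
    have h1 : Tendsto (fun n : ℕ => centeredMax f x + ENNReal.ofReal (2⁻¹ ^ n * (1 + 1 / v)))
        atTop (𝓝 (centeredMax f x + ENNReal.ofReal 0)) :=
      (ENNReal.tendsto_ofReal hc).const_add _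
    rw [ENNReal.ofReal_zero, add_zero] at h1
    filter_upwards [h1.eventually_lt_const ha'] with n hn
    refine lt_of_le_of_lt ?_ hn
    by_cases htop : centeredMax f x = ⊤
    · rw [htop, top_add]
      exact le_top
    · rw [← ENNReal.ofReal_toReal htop, ← ENNReal.ofReal_add ENNReal.toReal_nonneg (by positivity)]
      apply ENNReal.ofReal_le_ofReal
      unfold Cen.cu
      apply csSup_le
      · exact ⟨_, 2 ^ n, hR n, le_rfl, rfl⟩
      · rintro t ⟨r, hr1, hr2, rfl⟩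
        have hr0 : 0 < r := lt_of_lt_of_le (by positivity) hr1
        have h8 := abs_le.1 (key n x r hr1)
        have h9 := (Cen.tt_A_le_cmax (hh n) x hr0).trans (cen_mono (hle n) x)
        rw [← ENNReal.ofReal_toReal htop] at h9
        have h10 := (ENNReal.ofReal_le_ofReal_iff ENNReal.toReal_nonneg).1 h9
        linarith only [h8, h10]

/-! ### Large radii -/

/-- Averages over large balls. -/
theorem large_avg {f : E d → ℝ} {A : ℝ≥0∞}
    (hA : ∀ r : ℝ, 1 ≤ r → ∫⁻ z in Metric.ball (0 : E d) r, ‖f z‖ₑ ≤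
      A * volume (Metric.ball (0 : E d) r)) {R : ℝ} (hR : 0 < R) {x y : E d} (hx : ‖x‖ < R) {r : ℝ}
    (hr : 1 < r) (hxy : x ∈ Metric.ball y r) :
    (∫⁻ z in Metric.ball y r, ‖f z‖ₑ) / volume (Metric.ball y r) ≤
      ENNReal.ofReal ((R + 2) ^ d) * A := by
  have hr0 : 0 < r := by linarith
  have hsub : Metric.ball y r ⊆ Metric.ball (0 : E d) ((R + 2) * r) := by
    refine Metric.ball_subset_ball' ?_
    have h1 : dist y 0 ≤ dist y x + dist x 0 := dist_triangle _ _ _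
    rw [dist_zero_right x] at h1
    rw [Metric.mem_ball, dist_comm] at hxy
    nlinarith
  have h1 : ∫⁻ z in Metric.ball y r, ‖f z‖ₑ ≤ A * volume (Metric.ball (0 : E d) ((R + 2) * r)) :=
    (lintegral_mono_set hsub).trans (hA _ (by nlinarith))
  have hv0 : volume (Metric.ball y r) ≠ 0 := (Metric.measure_ball_pos volume y hr0).ne'
  have hvt : volume (Metric.ball y r) ≠ ⊤ := measure_ball_lt_top.ne
  rw [ENNReal.div_le_iff hv0 hvt]
  refine h1.trans (le_of_eq ?_)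
  rw [Measure.addHaar_ball_of_pos _ _ (by positivity : 0 < (R + 2) * r),
    Measure.addHaar_ball_of_pos _ _ hr0, finrank_euclideanSpace, Fintype.card_fin, mul_pow,
    ENNReal.ofReal_mul (by positivity)]
  ring

theorem unc_large {f h : E d → ℝ} {A : ℝ≥0∞}
    (hA : ∀ r : ℝ, 1 ≤ r → ∫⁻ z in Metric.ball (0 : E d) r, ‖f z‖ₑ ≤
      A * volume (Metric.ball (0 : E d) r)) {R : ℝ} (hR : 0 < R)
    (hh : ∀ x, ‖x‖ < R + 2 → h x = f x) {x : E d} (hx : ‖x‖ < R) :
    uncenteredMax f x ≤ uncenteredMax h x + ENNReal.ofReal ((R + 2) ^ d) * A := by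
  unfold uncenteredMax
  refine iSup_le fun y => iSup_le fun r => iSup_le fun hr => iSup_le fun hxy => ?_
  rcases le_or_gt r 1 with h1 | h1
  · refine le_trans ?_ le_self_add
    refine le_iSup_of_le y (le_iSup_of_le r (le_iSup_of_le hr (le_iSup_of_le hxy ?_)))
    refine le_of_eq ?_
    congr 1
    refine setLIntegral_congr_fun measurableSet_ball fun z hz => ?_
    rw [hh z]
    have h2 : dist z 0 ≤ dist z y + dist y x + dist x 0 := dist_triangle4 _ _ _ _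
    rw [dist_zero_right, dist_zero_right x] at h2
    rw [Metric.mem_ball] at hz hxy
    rw [dist_comm x y] at hxy
    linarith
  · exact (large_avg hA hR hx h1 hxy).trans le_add_self

theorem cen_large {f h : E d → ℝ} {A : ℝ≥0∞}
    (hA : ∀ r : ℝ, 1 ≤ r → ∫⁻ z in Metric.ball (0 : E d) r, ‖f z‖ₑ ≤
      A * volume (Metric.ball (0 : E d) r)) {R : ℝ} (hR : 0 < R)
    (hh : ∀ x, ‖x‖ < R + 2 → h x = f x) {x : E d} (hx : ‖x‖ < R) :
    centeredMax f x ≤ centeredMax h x + ENNReal.ofReal ((R + 2) ^ d) * A := by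
  unfold centeredMax
  refine iSup_le fun r => iSup_le fun hr => ?_
  rcases le_or_gt r 1 with h1 | h1
  · refine le_trans ?_ le_self_add
    refine le_iSup_of_le r (le_iSup_of_le hr ?_)
    refine le_of_eq ?_
    congr 1
    refine setLIntegral_congr_fun measurableSet_ball fun z hz => ?_
    rw [hh z]
    have h2 : dist z 0 ≤ dist z x + dist x 0 := dist_triangle _ _ _
    rw [dist_zero_right, dist_zero_right x] at h2
    rw [Metric.mem_ball] at hz
    linarith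
  · exact (large_avg hA hR hx h1 (Metric.mem_ball_self hr)).trans le_add_self

end Vale.Agent.P137.BV
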