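import Vale.Agent.P137.Bdl.B1
import Vale.Agent.P137.H838.Defs

open MeasureTheory Set Filter Topology
open scoped ENNReal NNReal ContDiff

namespace Vale.Agent.P137.BV

open Vale.Agent.P137 Vale.Agent.P137.U

variable {d : ℕ}

/-- test fields -/
structure TF (Φ : E d → E d) : Prop where
  smooth : ContDiff ℝ ∞ Φ
  compact : HasCompactSupport Φ
  le_one : ∀ x, ‖Φ x‖ ≤ 1

theorem divg_neg (Φ : E d → E d) (x : E d) : divg (fun y => - Φ y) x = - divg Φ x := by
  unfold divg
  rw [← Finset.sum_neg_distrib]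
  refine Finset.sum_congr rfl fun i _ => ?_
  rw [fderiv_fun_neg]
  simp

theorem divg_shift (Φ : E d → E d) (t x : E d) : divg (fun y => Φ (y + t)) x = divg Φ (x + t) := by
  unfold divg
  refine Finset.sum_congr rfl fun i _ => ?_
  rw [fderiv_comp_add_right]

theorem divg_continuous {Φ : E d → E d} (h : ContDiff ℝ ∞ Φ) : Continuous (divg Φ) := by
  unfold divg
  refine continuous_finsetSum _ fun i _ => ?_
  exact (EuclideanSpace.proj i : E d →L[ℝ] ℝ).continuous.comp
    ((h.continuous_fderiv (by simp)).clm_apply continuous_const)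

theorem divg_compact {Φ : E d → E d} (h : HasCompactSupport Φ) : HasCompactSupport (divg Φ) := by
  have h1 : divg Φ = (fun L : E d →L[ℝ] E d => ∑ i, L (EuclideanSpace.single i 1) i) ∘
      fderiv ℝ Φ := rfl
  rw [h1]
  exact (h.fderiv ℝ).comp_left (by simp)

theorem divg_zero_of {Φ : E d → E d} {k : ℝ} (h : ∀ x, k ≤ ‖x‖ → Φ x = 0) {x : E d}
    (hx : k < ‖x‖) : divg Φ x = 0 := by
  have h1 : Φ =ᶠ[𝓝 x] fun _ => 0 := by
    filter_upwards [continuous_norm.continuousAt.eventually (eventually_gt_nhds hx)] with y hy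
    exact h y hy.le
  unfold divg
  rw [h1.fderiv_eq]
  simp

theorem TF.neg {Φ : E d → E d} (h : TF Φ) : TF (fun x => - Φ x) :=
  ⟨h.smooth.neg, h.compact.comp_left (g := fun v => -v) (by simp), fun x => by simpa using h.le_one x⟩

theorem TF.shift {Φ : E d → E d} (h : TF Φ) (t : E d) : TF (fun x => Φ (x + t)) :=
  ⟨h.smooth.comp (contDiff_id.add contDiff_const),
    h.compact.comp_homeomorph (Homeomorph.addRight t), fun x => h.le_one _⟩

theorem tf_abs {f : E d → ℝ} {V : ℝ} {P : (E d → E d) → Prop}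
    (hP : ∀ Φ, P Φ → P (fun x => - Φ x))
    (hV : ∀ Φ, TF Φ → P Φ → ∫ x, f x * divg Φ x ≤ V) {Φ : E d → E d} (h : TF Φ) (hp : P Φ) :
    |∫ x, f x * divg Φ x| ≤ V := by
  rw [abs_le]
  constructor
  · have h1 := hV _ h.neg (hP _ hp)
    simp only [divg_neg, mul_neg, integral_neg] at h1
    linarith
  · exact hV _ h hp

/-- Fubini for a mollified function. -/
theorem int_mol_mul (ρ : ContDiffBump (0 : E d)) {h : E d → ℝ} (hh : Integrable h) {D : E d → ℝ}
    (hD : Continuous D) {B : ℝ} (hB : ∀ x, ‖D x‖ ≤ B) :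
    ∫ x, mol ρ h x * D x = ∫ t, ρ.normed volume t * ∫ y, h y * D (y + t) := by
  have h1 : Integrable (fun p : E d × E d => (ρ.normed volume p.2 * h (p.1 - p.2)) * D p.1)
      (volume.prod volume) := by
    have h2 := (ρ.integrable_normed (μ := volume)).convolution_integrand
      (ContinuousLinearMap.lsmul ℝ ℝ) hh
    exact h2.mul_bdd (c := B) (hD.comp continuous_fst).aestronglyMeasurable
      (ae_of_all _ fun p => hB p.1)
  calc ∫ x, mol ρ h x * D x = ∫ x, ∫ t, (ρ.normed volume t * h (x - t)) * D x := by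
        refine integral_congr_ae (ae_of_all _ fun x => ?_)
        simp only [mol_apply, smul_eq_mul]
        rw [integral_mul_const]
    _ = ∫ t, ∫ x, (ρ.normed volume t * h (x - t)) * D x := integral_integral_swap h1
    _ = _ := by
        refine integral_congr_ae (ae_of_all _ fun t => ?_)
        simp only [mul_assoc]
        rw [integral_const_mul]
        congr 1
        rw [← integral_add_right_eq_self (fun x => h (x - t) * D x) t]
        simp

theorem mol_test {f h : E d → ℝ} {V : ℝ} (hV : ∀ Φ, TF Φ → ∫ x, f x * divg Φ x ≤ V)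
    (hh : Integrable h) {k : ℝ} (hk : ∀ x, ‖x‖ < k → h x = f x) (ρ : ContDiffBump (0 : E d))
    (hρ : ρ.rOut ≤ 1) {Φ : E d → E d} (hΦ : TF Φ) (hs : ∀ x, k - 1 ≤ ‖x‖ → Φ x = 0) :
    ∫ x, mol ρ h x * divg Φ x ≤ V := by
  obtain ⟨B, hB⟩ := (divg_compact hΦ.compact).exists_bound_of_continuous
    (divg_continuous hΦ.smooth)
  rw [int_mol_mul ρ hh (divg_continuous hΦ.smooth) hB]
  have h1 : ∀ t, ‖ρ.normed volume t * ∫ y, h y * divg Φ (y + t)‖ ≤ ρ.normed volume t * V := by
    intro t
    rw [norm_mul, Real.norm_of_nonneg (ρ.nonneg_normed t)]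
    by_cases ht : ρ.normed volume t = 0
    · rw [ht]; simp
    · have ht1 : ‖t‖ < 1 := by
        have h2 : t ∈ Function.support (ρ.normed volume) := ht
        rw [ρ.support_normed_eq, Metric.mem_ball, dist_zero_right] at h2
        exact h2.trans_le hρ
      refine mul_le_mul_of_nonneg_left ?_ (ρ.nonneg_normed t)
      have h3 : ∫ y, h y * divg Φ (y + t) = ∫ y, f y * divg (fun z => Φ (z + t)) y := by
        refine integral_congr_ae (ae_of_all _ fun y => ?_)
        simp only [divg_shift]
        by_cases hy : ‖y‖ < k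
        · rw [hk y hy]
        · have h4 : k - 1 < ‖y + t‖ := by
            have := norm_sub_norm_le y (-t)
            rw [sub_neg_eq_add, norm_neg] at this
            linarith
          rw [divg_zero_of hs h4]; simp
      rw [h3, Real.norm_eq_abs]
      exact tf_abs (P := fun _ => True) (fun _ _ => trivial) (fun Φ h _ => hV Φ h) (hΦ.shift t)
        trivial
  refine (le_abs_self _).trans ?_
  rw [← Real.norm_eq_abs]
  refine (norm_integral_le_of_norm_le (ρ.integrable_normed.mul_const V)
    (ae_of_all _ h1)).trans (le_of_eq ?_)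
  rw [integral_mul_const, ρ.integral_normed, one_mul]

/-- Integration by parts. -/
theorem int_mul_divg {u : E d → ℝ} (hu : ContDiff ℝ ∞ u) {Φ : E d → E d} (hΦ : ContDiff ℝ ∞ Φ)
    (hc : HasCompactSupport Φ) :
    ∫ x, u x * divg Φ x = - ∫ x, fderiv ℝ u x (Φ x) := by
  have hs : ∀ i : Fin d, ContDiff ℝ ∞ (fun x => Φ x i) := fun i =>
    (EuclideanSpace.proj i : E d →L[ℝ] ℝ).contDiff.comp hΦ
  have hcs : ∀ i : Fin d, HasCompactSupport (fun x => Φ x i) := fun i =>
    hc.comp_left (g := fun v : E d => v i) (by simp)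
  have hd : ∀ (i : Fin d) (x v : E d), fderiv ℝ (fun x => Φ x i) x v = fderiv ℝ Φ x v i := by
    intro i x v
    have h1 := ((EuclideanSpace.proj i : E d →L[ℝ] ℝ).hasFDerivAt (x := Φ x)).comp x
      ((hΦ.differentiable (by simp)) x).hasFDerivAt
    have h2 : fderiv ℝ (fun x => Φ x i) x = (EuclideanSpace.proj i : E d →L[ℝ] ℝ).comp
      (fderiv ℝ Φ x) := h1.fderiv
    rw [h2]; rfl
  have hfu : Continuous (fderiv ℝ u) := hu.continuous_fderiv (by simp)
  have i1 : ∀ i : Fin d, Integrable (fun x => fderiv ℝ u x (EuclideanSpace.single i 1) * Φ x i) :=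
    fun i => ((hfu.clm_apply continuous_const).mul
      (hs i).continuous).integrable_of_hasCompactSupport (hcs i).mul_left
  have i2 : ∀ i : Fin d, Integrable
      (fun x => u x * fderiv ℝ (fun x => Φ x i) x (EuclideanSpace.single i 1)) := fun i =>
    (hu.continuous.mul (((hs i).continuous_fderiv (by simp)).clm_apply
      continuous_const)).integrable_of_hasCompactSupport ((hcs i).fderiv_apply ℝ _).mul_left
  have i3 : ∀ i : Fin d, Integrable (fun x => u x * Φ x i) := fun i =>
    (hu.continuous.mul (hs i).continuous).integrable_of_hasCompactSupport (hcs i).mul_left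
  have hparts : ∀ i : Fin d, ∫ x, u x * fderiv ℝ (fun x => Φ x i) x (EuclideanSpace.single i 1) =
      - ∫ x, fderiv ℝ u x (EuclideanSpace.single i 1) * Φ x i := fun i =>
    integral_mul_fderiv_eq_neg_fderiv_mul_of_integrable (i1 i) (i2 i) (i3 i)
      (fun x _ => hu.differentiable (by simp) x) (fun x _ => (hs i).differentiable (by simp) x)
  have e1 : ∀ x, u x * divg Φ x =
      ∑ i, u x * fderiv ℝ (fun x => Φ x i) x (EuclideanSpace.single i 1) := by
    intro x
    unfold divg
    rw [Finset.mul_sum]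
    exact Finset.sum_congr rfl fun i _ => by rw [hd]
  have e2 : ∀ x, fderiv ℝ u x (Φ x) = ∑ i, fderiv ℝ u x (EuclideanSpace.single i 1) * Φ x i := by
    intro x
    have hv : ∑ i, Φ x i • EuclideanSpace.single i (1:ℝ) = Φ x := by
      ext j
      simp [Pi.single_apply]
    conv_lhs => rw [← hv]
    rw [map_sum]
    exact Finset.sum_congr rfl fun i _ => by rw [map_smul, smul_eq_mul, mul_comm]
  simp only [e1, e2]
  rw [integral_finsetSum _ (fun i _ => i2 i), integral_finsetSum _ (fun i _ => i1 i),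
    ← Finset.sum_neg_distrib]
  exact Finset.sum_congr rfl fun i _ => hparts i

/-- The gradient of a smooth function is controlled by testing. -/
theorem grad_le_of_test {u : E d → ℝ} (hu : ContDiff ℝ ∞ u) {V : ℝ} {k : ℝ}
    (hV : ∀ Φ, TF Φ → (∀ x, k ≤ ‖x‖ → Φ x = 0) → ∫ x, u x * divg Φ x ≤ V) {k' : ℝ}
    (hk : k' < k) (hk0 : 0 < k') :
    ∫⁻ x in Metric.ball (0 : E d) k', ‖fderiv ℝ u x‖ₑ ≤ ENNReal.ofReal V := by
  let χ : ContDiffBump (0 : E d) := ⟨k', k, hk0, hk⟩
  have hG : ContDiff ℝ ∞ (gradient u) :=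
    (InnerProductSpace.toDual ℝ (E d)).symm.toContinuousLinearEquiv.contDiff.comp
      (hu.fderiv_right (by simp))
  have hχ : ContDiff ℝ ∞ χ := χ.contDiff
  have hχc : HasCompactSupport χ := χ.hasCompactSupport
  have hint : Integrable (fun x => χ x * ‖gradient u x‖) :=
    (hχ.continuous.mul hG.continuous.norm).integrable_of_hasCompactSupport hχc.mul_right
  have hχi : Integrable χ := hχ.continuous.integrable_of_hasCompactSupport hχc
  have key : ∀ δ : ℝ, 0 < δ → ∫ x, χ x * ‖gradient u x‖ ≤ V + δ * ∫ x, χ x := by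
    intro δ hδ
    set s : E d → ℝ := fun x => √(‖gradient u x‖ ^ 2 + δ ^ 2) with hs
    have hs0 : ∀ x, 0 < s x := fun x => Real.sqrt_pos.2 (by positivity)
    have hss : ContDiff ℝ ∞ s := ((hG.norm_sq ℝ).add contDiff_const).sqrt fun x => by positivity
    have hsle : ∀ x, ‖gradient u x‖ ≤ s x := fun x => by
      rw [hs]
      refine Real.le_sqrt_of_sq_le ?_
      linarith [sq_nonneg δ]
    have hsge : ∀ x, s x ≤ ‖gradient u x‖ + δ := fun x => by
      rw [hs]
      refine Real.sqrt_le_iff.2 ⟨by positivity, ?_⟩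
      nlinarith [norm_nonneg (gradient u x), mul_nonneg (norm_nonneg (gradient u x)) hδ.le]
    set Φ : E d → E d := fun x => (χ x * (s x)⁻¹) • gradient u x with hΦ
    have hΦs : ContDiff ℝ ∞ Φ := (hχ.mul (hss.inv fun x => (hs0 x).ne')).smul hG
    have hΦc : HasCompactSupport Φ := by
      have : HasCompactSupport (fun x => χ x * (s x)⁻¹) := hχc.mul_right
      exact this.smul_right
    have hΦ1 : ∀ x, ‖Φ x‖ ≤ 1 := by
      intro x
      rw [hΦ]
      simp only
      rw [norm_smul, norm_mul, norm_inv, Real.norm_of_nonneg (hs0 x).le,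
        Real.norm_of_nonneg χ.nonneg, mul_assoc]
      have h1 : (s x)⁻¹ * ‖gradient u x‖ ≤ 1 := by
        rw [inv_mul_le_iff₀ (hs0 x), mul_one]
        exact hsle x
      have h2 : χ x ≤ 1 := χ.le_one
      have h3 : 0 ≤ χ x := χ.nonneg
      have h4 : 0 ≤ (s x)⁻¹ * ‖gradient u x‖ := mul_nonneg (inv_nonneg.2 (hs0 x).le) (norm_nonneg _)
      nlinarith
    have hT : TF Φ := ⟨hΦs, hΦc, hΦ1⟩
    have hz : ∀ x, k ≤ ‖x‖ → Φ x = 0 := by
      intro x hx
      have : χ x = 0 := χ.zero_of_le_dist (by rw [dist_zero_right]; exact hx)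
      rw [hΦ]
      simp [this]
    have h1 := hV _ hT.neg (fun x hx => by simp [hz x hx])
    simp only [divg_neg, mul_neg, integral_neg] at h1
    rw [int_mul_divg hu hΦs hΦc, neg_neg] at h1
    have h2 : ∀ x, χ x * ‖gradient u x‖ ≤ fderiv ℝ u x (Φ x) + δ * χ x := by
      intro x
      have e : fderiv ℝ u x (Φ x) = χ x * ((s x)⁻¹ * ‖gradient u x‖ ^ 2) := by
        have e1 : fderiv ℝ u x (gradient u x) = ‖gradient u x‖ ^ 2 := by
          rw [← real_inner_self_eq_norm_sq, gradient, ← InnerProductSpace.toDual_apply_apply (𝕜 := ℝ),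
            LinearIsometryEquiv.apply_symm_apply]
        rw [hΦ]
        simp only [map_smul, smul_eq_mul, e1]
        ring
      rw [e]
      have h3 : ‖gradient u x‖ - δ ≤ (s x)⁻¹ * ‖gradient u x‖ ^ 2 := by
        rw [le_inv_mul_iff₀ (hs0 x)]
        have h5 := hsle x
        have h6 := hsge x
        have h7 := hs0 x
        by_cases h8 : ‖gradient u x‖ - δ ≤ 0
        · nlinarith [sq_nonneg ‖gradient u x‖]
        · push Not at h8
          nlinarith [norm_nonneg (gradient u x)]
      have h4 : 0 ≤ χ x := χ.nonneg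
      nlinarith
    have i1 : Integrable (fun x => fderiv ℝ u x (Φ x)) :=
      ((hu.continuous_fderiv (by simp)).clm_apply hΦs.continuous).integrable_of_hasCompactSupport
        (hΦc.mono fun x hx h => hx (by simp [h]))
    calc ∫ x, χ x * ‖gradient u x‖ ≤ ∫ x, (fderiv ℝ u x (Φ x) + δ * χ x) :=
          integral_mono hint (i1.add (hχi.const_mul δ)) h2
      _ = (∫ x, fderiv ℝ u x (Φ x)) + δ * ∫ x, χ x := by
          rw [integral_add i1 (hχi.const_mul δ), integral_const_mul]
      _ ≤ V + δ * ∫ x, χ x := by linarith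
  have hfin : ∫ x, χ x * ‖gradient u x‖ ≤ V := by
    have h0 : 0 ≤ ∫ x, χ x := integral_nonneg fun x => χ.nonneg
    refine le_of_forall_pos_le_add fun ε hε => ?_
    have := key (ε / ((∫ x, χ x) + 1)) (by positivity)
    refine this.trans ?_
    gcongr
    rw [div_mul_eq_mul_div, div_le_iff₀ (by positivity)]
    nlinarith
  calc ∫⁻ x in Metric.ball (0 : E d) k', ‖fderiv ℝ u x‖ₑ
      ≤ ∫⁻ x in Metric.ball (0 : E d) k', ENNReal.ofReal (χ x * ‖gradient u x‖) := by
        refine setLIntegral_mono_ae' measurableSet_ball (ae_of_all _ fun x hx => ?_)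
        have : χ x = 1 := χ.one_of_mem_closedBall (Metric.ball_subset_closedBall hx)
        rw [this, one_mul, ← fa_enorm_gradient, ofReal_norm]
    _ ≤ ∫⁻ x, ENNReal.ofReal (χ x * ‖gradient u x‖) := setLIntegral_le_lintegral _ _
    _ = ENNReal.ofReal (∫ x, χ x * ‖gradient u x‖) :=
        (ofReal_integral_eq_lintegral_ofReal hint
          (ae_of_all _ fun x => mul_nonneg χ.nonneg (norm_nonneg _))).symm
    _ ≤ ENNReal.ofReal V := ENNReal.ofReal_le_ofReal hfin

end Vale.Agent.P137.BV
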